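import Vale.Agent.P268.T.H654.Left
import Vale.Agent.P268.T.H240.Split

/-!
# P268, topological half: `LeftProp`
-/

namespace Vale.Agent.P268.T.H654

open Vale.Agent.P268.T.H240

theorem leftProp : LeftProp := fun d _ _ _ _ _ _ _ _ h hK => left_veq h (frk d).hh hK

end Vale.Agent.P268.T.H654
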