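import Vale.Agent.P268.T.H121.Radial

/-!
# P268, topological half: the convex plates lemma

If the real part of `F` is locally a maximum of finitely many concave functions, and the imaginary
part is linear along the directions used, then `F` is regular at `x₀` as soon as there is one vector
`a`, not moving the imaginary part, such that every active concave piece is larger at `x₀ + a` than
at `x₀`: the active plates have a common interior point.
-/

set_option linter.all false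

namespace Vale.Agent.P268.T

open Set Filter Topology

variable {E : Type*} [NormedAddCommGroup E] [NormedSpace ℝ E]
  {T : Type*} [TopologicalSpace T]

/-- From a joint neighbourhood to a product one. -/
theorem ev_prod' {s : Set T} {t₀ : T} {x₀ : E} {Q : T → E → Prop}
    (h : ∀ᶠ p in 𝓝[s ×ˢ univ] (t₀, x₀), Q p.1 p.2) :
    ∃ r : ℝ, 0 < r ∧ ∀ᶠ t in 𝓝[s] t₀, ∀ x, dist x x₀ < r → Q t x := by
  rw [nhdsWithin_prod_eq, nhdsWithin_univ, eventually_prod_iff] at h
  obtain ⟨pa, ha, pb, hb, hab⟩ := h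
  obtain ⟨r, hr, hball⟩ := Metric.eventually_nhds_iff.mp hb
  exact ⟨r, hr, ha.mono fun t ht x hx => hab ht (hball hx)⟩

/-- A concave piece: uniform Lipschitz constant and slope. -/
theorem concave_piece {s : Set T} {g : T → E → ℝ} {t₀ : T} {x₀ a : E} {C : Set E}
    (hx : C ∈ 𝓝 x₀) (ha : C ∈ 𝓝 (x₀ + a))
    (hconc : ∀ᶠ t in 𝓝[s] t₀, ConcaveOn ℝ C (g t))
    (hc : ContinuousWithinAt (fun p : T × E => g p.1 p.2) (s ×ˢ univ) (t₀, x₀))
    (hca : ContinuousWithinAt (fun p : T × E => g p.1 p.2) (s ×ˢ univ) (t₀, x₀ + a))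
    (hlt : g t₀ x₀ < g t₀ (x₀ + a)) :
    ∃ κ L r : ℝ, 0 < κ ∧ 0 ≤ L ∧ 0 < r ∧ ∀ᶠ t in 𝓝[s] t₀,
      (∀ x y, dist x x₀ < r → dist y x₀ < r → |g t x - g t y| ≤ L * ‖x - y‖) ∧
      ∀ x, dist x x₀ < r → ∀ q ∈ Icc (0 : ℝ) 1, κ * q ≤ g t (x + q • a) - g t x := by
  set d := g t₀ (x₀ + a) - g t₀ x₀ with hd
  have hd0 : 0 < d := sub_pos.mpr hlt
  obtain ⟨r1, hr1, hb1⟩ := Metric.mem_nhds_iff.mp hx
  obtain ⟨r2, hr2, hb2⟩ := Metric.mem_nhds_iff.mp ha
  obtain ⟨r3, hr3, h3⟩ := ev_prod' (Q := fun t x => |g t x - g t₀ x₀| < min 1 (d / 4)) (by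
    have := hc.eventually (Metric.ball_mem_nhds _ (lt_min one_pos (by positivity : 0 < d / 4)))
    refine this.mono fun z hz => ?_
    have := Metric.mem_ball.mp hz
    rwa [Real.dist_eq] at this)
  obtain ⟨r4, hr4, h4⟩ := ev_prod' (Q := fun t x => |g t x - g t₀ (x₀ + a)| < d / 4) (by
    have := hca.eventually (Metric.ball_mem_nhds _ (by positivity : 0 < d / 4))
    refine this.mono fun z hz => ?_
    have := Metric.mem_ball.mp hz
    rwa [Real.dist_eq] at this)
  set r := min (min r1 r2) (min r3 r4) with hr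
  have hr0 : 0 < r := lt_min (lt_min hr1 hr2) (lt_min hr3 hr4)
  have e1 : r ≤ r1 := (min_le_left _ _).trans (min_le_left _ _)
  have e2 : r ≤ r2 := (min_le_left _ _).trans (min_le_right _ _)
  have e3 : r ≤ r3 := (min_le_right _ _).trans (min_le_left _ _)
  have e4 : r ≤ r4 := (min_le_right _ _).trans (min_le_right _ _)
  set M := |g t₀ x₀| + 1 with hM
  refine ⟨d / 2, 2 * M / (r / 2), r / 2, by positivity, by positivity, by positivity, ?_⟩
  filter_upwards [hconc, h3, h4] with t k1 k3 k4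
  have hball : Metric.ball x₀ r ⊆ C := fun x hx' => hb1 (Metric.ball_subset_ball e1 hx')
  constructor
  · have hcb : ConcaveOn ℝ (Metric.ball x₀ r) (g t) := k1.subset hball (convex_ball _ _)
    have hL := hcb.lipschitzOnWith_of_abs_le (ε := r / 2) (by positivity) (M := M) (by
      intro x hx'
      have h5 := k3 x (hx'.trans_le e3)
      have h6 := h5.trans_le (min_le_left _ _)
      have h7 : |g t x| ≤ |g t x - g t₀ x₀| + |g t₀ x₀| := by
        have := abs_add_le (g t x - g t₀ x₀) (g t₀ x₀)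
        rwa [sub_add_cancel] at this
      rw [hM]
      linarith)
    rw [show r - r / 2 = r / 2 by ring] at hL
    intro x y hx' hy'
    have := hL.dist_le_mul x (Metric.mem_ball.mpr hx') y (Metric.mem_ball.mpr hy')
    rw [Real.dist_eq, dist_eq_norm, Real.coe_toNNReal _ (by positivity)] at this
    exact this
  · intro x hx' q hq
    have hxr : dist x x₀ < r := hx'.trans (by linarith)
    have hxC : x ∈ C := hball (Metric.mem_ball.mpr hxr)
    have hxa : dist (x + a) (x₀ + a) < r := by rwa [dist_add_right]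
    have hxaC : x + a ∈ C := hb2 (Metric.mem_ball.mpr (hxa.trans_le e2))
    have h5 := k3 x (hxr.trans_le e3)
    have h6 := k4 (x + a) (hxa.trans_le e4)
    have h7 := h5.trans_le (min_le_right _ _)
    have h8 : d / 2 ≤ g t (x + a) - g t x := by
      rw [abs_lt] at h6 h7
      linarith [h6.1, h7.2]
    have h9 := k1.2 hxC hxaC (sub_nonneg.mpr hq.2) hq.1 (by ring)
    have h10 : (1 - q) • x + q • (x + a) = x + q • a := by
      rw [smul_add, ← add_assoc, ← add_smul, sub_add_cancel, one_smul]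
    rw [h10, smul_eq_mul, smul_eq_mul] at h9
    have h11 : q * (d / 2) ≤ q * (g t (x + a) - g t x) := mul_le_mul_of_nonneg_left h8 hq.1
    linarith

theorem cross_est {κ θ m P Q : ℝ} (hκ : 0 < κ) (hθ : 0 < θ) (h : m ^ 2 * θ ≤ κ) :
    m * θ * Q * P ≤ κ / 2 * P ^ 2 + θ / 2 * Q ^ 2 := by
  have h1 : 0 ≤ (κ * P - m * θ * Q) ^ 2 := sq_nonneg _
  have h2 : (m ^ 2 * θ) * (θ * Q ^ 2) ≤ κ * (θ * Q ^ 2) :=
    mul_le_mul_of_nonneg_right h (by positivity)
  have h3 : (κ * P - m * θ * Q) ^ 2 = κ ^ 2 * P ^ 2 - 2 * κ * (m * θ * Q * P) +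
      (m ^ 2 * θ) * (θ * Q ^ 2) := by ring
  have h4 : κ * (2 * (m * θ * Q * P)) ≤ κ * (κ * P ^ 2 + θ * Q ^ 2) := by
    have e1 : κ * (2 * (m * θ * Q * P)) = 2 * κ * (m * θ * Q * P) := by ring
    have e2 : κ * (κ * P ^ 2 + θ * Q ^ 2) = κ ^ 2 * P ^ 2 + κ * (θ * Q ^ 2) := by ring
    rw [e1, e2]
    linarith
  have h5 := le_of_mul_le_mul_left h4 hκ
  linarith

theorem min_est {κ θ P Q R : ℝ} (h : κ * P ^ 2 - (κ / 2 * P ^ 2 + θ / 2 * Q ^ 2) ≤ R) :
    min κ θ / 2 * (P ^ 2 + Q ^ 2) ≤ R + θ * Q * Q := by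
  have h1 : min κ θ * P ^ 2 ≤ κ * P ^ 2 :=
    mul_le_mul_of_nonneg_right (min_le_left _ _) (sq_nonneg _)
  have h2 : min κ θ * Q ^ 2 ≤ θ * Q ^ 2 :=
    mul_le_mul_of_nonneg_right (min_le_right _ _) (sq_nonneg _)
  have h3 : min κ θ / 2 * (P ^ 2 + Q ^ 2) = (min κ θ * P ^ 2 + min κ θ * Q ^ 2) / 2 := by ring
  have h4 : θ * Q * Q = θ * Q ^ 2 := by ring
  rw [h3, h4]
  linarith

/-- **Convex plates lemma.** -/
theorem RegAt.of_concave {ι : Type*} {s : Set T} {F : T → E → ℂ} {t₀ : T} {x₀ : E}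
    (P : Finset ι) (f : ι → T → E → ℝ) {C : Set E} (a e : E)
    (hx : C ∈ 𝓝 x₀) (ha : C ∈ 𝓝 (x₀ + a))
    (hre : ∃ U ∈ 𝓝 x₀, ∀ᶠ t in 𝓝[s] t₀, ∀ x ∈ U, ∀ y ∈ U, ∃ i ∈ P,
      (F t y).re - (F t x).re ≤ f i t y - f i t x)
    (hconc : ∀ i ∈ P, ∀ᶠ t in 𝓝[s] t₀, ConcaveOn ℝ C (f i t))
    (hc : ∀ i ∈ P, ContinuousWithinAt (fun p : T × E => f i p.1 p.2) (s ×ˢ univ) (t₀, x₀))
    (hca : ∀ i ∈ P, ContinuousWithinAt (fun p : T × E => f i p.1 p.2) (s ×ˢ univ) (t₀, x₀ + a))
    (hlt : ∀ i ∈ P, f i t₀ x₀ < f i t₀ (x₀ + a))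
    (him : ∃ U ∈ 𝓝 x₀, ∀ᶠ t in 𝓝[s] t₀, ∀ x ∈ U, ∀ p q : ℝ, x + (p • a + q • e) ∈ U →
      (F t (x + (p • a + q • e))).im - (F t x).im = q) :
    RegAt s F t₀ x₀ := by
  classical
  obtain ⟨U1, hU1, hre⟩ := hre
  obtain ⟨U2, hU2, him⟩ := him
  -- uniform constants
  have key : ∃ κ L r : ℝ, 0 < κ ∧ 0 ≤ L ∧ 0 < r ∧ ∀ᶠ t in 𝓝[s] t₀, ∀ i ∈ P,
      (∀ x y, dist x x₀ < r → dist y x₀ < r → |f i t x - f i t y| ≤ L * ‖x - y‖) ∧
      ∀ x, dist x x₀ < r → ∀ q ∈ Icc (0 : ℝ) 1, κ * q ≤ f i t (x + q • a) - f i t x := by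
    have : ∀ Q : Finset ι, (∀ i ∈ Q, i ∈ P) → ∃ κ L r : ℝ, 0 < κ ∧ 0 ≤ L ∧ 0 < r ∧
        ∀ᶠ t in 𝓝[s] t₀, ∀ i ∈ Q,
        (∀ x y, dist x x₀ < r → dist y x₀ < r → |f i t x - f i t y| ≤ L * ‖x - y‖) ∧
        ∀ x, dist x x₀ < r → ∀ q ∈ Icc (0 : ℝ) 1, κ * q ≤ f i t (x + q • a) - f i t x := by
      intro Q
      induction Q using Finset.induction_on with
      | empty =>
        exact fun _ => ⟨1, 0, 1, one_pos, le_rfl, one_pos,
          Eventually.of_forall fun t i hi => by simp at hi⟩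
      | insert j Q hj IH =>
        intro hQ
        obtain ⟨κ, L, r, h1, h2, h3, h4⟩ := IH fun i hi => hQ i (Finset.mem_insert_of_mem hi)
        have hjP := hQ j (Finset.mem_insert_self _ _)
        obtain ⟨κ', L', r', h1', h2', h3', h4'⟩ := concave_piece hx ha (hconc j hjP)
          (hc j hjP) (hca j hjP) (hlt j hjP)
        refine ⟨min κ κ', max L L', min r r', lt_min h1 h1', h2.trans (le_max_left _ _),
          lt_min h3 h3', ?_⟩
        filter_upwards [h4, h4'] with t e1 e2 i hi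
        rcases Finset.mem_insert.mp hi with rfl | hi
        · refine ⟨fun x y hx' hy' => (e2.1 x y (hx'.trans_le (min_le_right _ _))
            (hy'.trans_le (min_le_right _ _))).trans
            (mul_le_mul_of_nonneg_right (le_max_right _ _) (norm_nonneg _)),
            fun x hx' q hq => le_trans
              (mul_le_mul_of_nonneg_right (min_le_right _ _) hq.1)
              (e2.2 x (hx'.trans_le (min_le_right _ _)) q hq)⟩
        · refine ⟨fun x y hx' hy' => ((e1 i hi).1 x y (hx'.trans_le (min_le_left _ _))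
            (hy'.trans_le (min_le_left _ _))).trans
            (mul_le_mul_of_nonneg_right (le_max_left _ _) (norm_nonneg _)),
            fun x hx' q hq => le_trans
              (mul_le_mul_of_nonneg_right (min_le_left _ _) hq.1)
              ((e1 i hi).2 x (hx'.trans_le (min_le_left _ _)) q hq)⟩
    exact this P fun _ h => h
  obtain ⟨κ, L, r, hκ, hL, hr, hkey⟩ := key
  obtain ⟨ρ1, hρ1, hball1⟩ := Metric.mem_nhds_iff.mp hU1
  obtain ⟨ρ2, hρ2, hball2⟩ := Metric.mem_nhds_iff.mp hU2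
  set ρ := min r (min ρ1 ρ2) with hρ
  have hρ0 : 0 < ρ := lt_min hr (lt_min hρ1 hρ2)
  have g1 : ρ ≤ r := min_le_left _ _
  have g2 : ρ ≤ ρ1 := (min_le_right _ _).trans (min_le_left _ _)
  have g3 : ρ ≤ ρ2 := (min_le_right _ _).trans (min_le_right _ _)
  -- the plane direction
  set m : ℝ := L * ‖e‖ with hm
  have hm0 : 0 ≤ m := by positivity
  set θ : ℝ := κ / (m ^ 2 + κ) with hθ
  have hθ0 : 0 < θ := by positivity
  have hθ1 : θ ≤ 1 := by
    rw [hθ, div_le_one (by positivity)]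
    nlinarith [sq_nonneg m]
  have hθm : m ^ 2 * θ ≤ κ := by
    rw [hθ, mul_div_assoc', div_le_iff₀ (by positivity)]
    nlinarith [sq_nonneg m, hκ]
  let A : ℂ →L[ℝ] E := Complex.reCLM.smulRight a + (θ • Complex.imCLM).smulRight e
  have hA : ∀ c : ℂ, A c = c.re • a + (θ * c.im) • e := by
    intro c
    simp [A]
  set W : ℝ := ‖a‖ + ‖e‖ + 1 with hW
  have hW0 : 0 < W := by positivity
  set δ : ℝ := min 1 (ρ / (4 * W)) with hδ
  have hδ0 : 0 < δ := lt_min one_pos (by positivity)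
  have hδ1 : δ ≤ 1 := min_le_left _ _
  have hδW : δ * W ≤ ρ / 4 := by
    calc δ * W ≤ ρ / (4 * W) * W := mul_le_mul_of_nonneg_right (min_le_right _ _) hW0.le
      _ = ρ / 4 := by field_simp
  refine RegAt.of_monotone_small (κ := min κ θ / 2)
    (Λ := L * W + 1) (δ := δ) (by
      have := lt_min hκ hθ0
      linarith) hδ0 A ⟨Metric.ball x₀ (ρ / 2), Metric.ball_mem_nhds _ (by positivity), ?_⟩
  filter_upwards [hkey, hre, him] with t ht hret himt x hx' c hc'
  have hx2 : dist x x₀ < ρ / 2 := Metric.mem_ball.mp hx'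
  set p := c.re with hp
  set q := c.im with hq
  have hpc : |p| ≤ ‖c‖ := Complex.abs_re_le_norm c
  have hqc : |q| ≤ ‖c‖ := Complex.abs_im_le_norm c
  have hp1 : |p| ≤ δ := hpc.trans hc'
  have hq1 : |q| ≤ δ := hqc.trans hc'
  have hcsq : ‖c‖ ^ 2 = p ^ 2 + q ^ 2 := by
    rw [Complex.sq_norm, Complex.normSq_apply, hp, hq]; ring
  -- points stay in the ball
  have hmove : ∀ p' q' : ℝ, |p'| ≤ δ → |q'| ≤ δ → dist (x + (p' • a + q' • e)) x₀ < ρ := by
    intro p' q' h1 h2
    have e1 : ‖p' • a + q' • e‖ ≤ ρ / 4 := by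
      refine (norm_add_le _ _).trans ?_
      rw [norm_smul, norm_smul, Real.norm_eq_abs, Real.norm_eq_abs]
      have e2 : |p'| * ‖a‖ ≤ δ * ‖a‖ := mul_le_mul_of_nonneg_right h1 (norm_nonneg _)
      have e3 : |q'| * ‖e‖ ≤ δ * ‖e‖ := mul_le_mul_of_nonneg_right h2 (norm_nonneg _)
      have e4 : δ * W = δ * ‖a‖ + δ * ‖e‖ + δ := by rw [hW]; ring
      linarith
    calc dist (x + (p' • a + q' • e)) x₀ ≤ dist (x + (p' • a + q' • e)) x + dist x x₀ :=
          dist_triangle _ _ _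
      _ < ρ / 4 + ρ / 2 + ρ / 4 := by
          rw [dist_eq_norm, add_sub_cancel_left]
          linarith
      _ = ρ := by ring
  have hθq : |θ * q| ≤ |q| := by
    rw [abs_mul, abs_of_pos hθ0]
    exact mul_le_of_le_one_left (abs_nonneg _) hθ1
  have hAc : A c = p • a + (θ * q) • e := hA c
  have hxin : dist x x₀ < ρ := by linarith
  have hyin : dist (x + A c) x₀ < ρ := by
    rw [hAc]
    exact hmove _ _ hp1 (hθq.trans hq1)
  set y := x + A c with hy
  have hImF : (F t y).im - (F t x).im = θ * q := by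
    have := himt x (hball2 (Metric.mem_ball.mpr (hxin.trans_le g3))) p (θ * q) (by
      rw [← hAc]
      exact hball2 (Metric.mem_ball.mpr (hyin.trans_le g3)))
    rw [← hAc] at this
    exact this
  -- the real part
  have hinc : ∀ i ∈ P, κ * p ^ 2 - m * θ * |q| * |p| ≤ (f i t y - f i t x) * p ∧
      |f i t y - f i t x| ≤ L * ‖A c‖ := by
    intro i hi
    obtain ⟨i1, i2⟩ := ht i hi
    refine ⟨?_, ?_⟩
    · -- intermediate point
      set z := x + (θ * q) • e with hz
      have hzin : dist z x₀ < ρ := by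
        have := hmove 0 (θ * q) (by rw [abs_zero]; exact hδ0.le) (hθq.trans hq1)
        rwa [zero_smul, zero_add] at this
      have hyz : y = z + p • a := by
        rw [hy, hAc, hz]; abel
      have h1 : |f i t z - f i t x| ≤ m * θ * |q| := by
        have := i1 z x (hzin.trans_le g1) (hxin.trans_le g1)
        refine this.trans ?_
        rw [hz, add_sub_cancel_left, norm_smul, Real.norm_eq_abs, abs_mul, abs_of_pos hθ0, hm]
        apply le_of_eq; ring
      have h2 : κ * p ^ 2 ≤ (f i t y - f i t z) * p := by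
        rcases le_total 0 p with h0 | h0
        · have := i2 z (hzin.trans_le g1) p ⟨h0, by
            rw [abs_of_nonneg h0] at hp1; linarith⟩
          rw [← hyz] at this
          calc κ * p ^ 2 = (κ * p) * p := by ring
            _ ≤ _ := mul_le_mul_of_nonneg_right this h0
        · have := i2 y (hyin.trans_le g1) (-p) ⟨by linarith, by
            rw [abs_of_nonpos h0] at hp1; linarith⟩
          have hzy : y + (-p) • a = z := by
            rw [hyz, neg_smul, add_neg_cancel_right]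
          rw [hzy] at this
          have h3 : κ * (-p) * (-p) ≤ (f i t z - f i t y) * (-p) :=
            mul_le_mul_of_nonneg_right this (by linarith)
          linarith
      have h3 : -(m * θ * |q| * |p|) ≤ (f i t z - f i t x) * p := by
        have : |(f i t z - f i t x) * p| ≤ m * θ * |q| * |p| := by
          rw [abs_mul]
          exact mul_le_mul_of_nonneg_right h1 (abs_nonneg _)
        exact (abs_le.mp this).1
      have h4 : (f i t y - f i t x) * p = (f i t y - f i t z) * p + (f i t z - f i t x) * p := by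
        ring
      rw [h4]
      linarith
    · have := i1 y x (hyin.trans_le g1) (hxin.trans_le g1)
      rwa [hy, add_sub_cancel_left] at this
  have hnA : ‖A c‖ ≤ W * ‖c‖ := by
    rw [hAc]
    refine (norm_add_le _ _).trans ?_
    rw [norm_smul, norm_smul, Real.norm_eq_abs, Real.norm_eq_abs]
    have e2 : |p| * ‖a‖ ≤ ‖c‖ * ‖a‖ := mul_le_mul_of_nonneg_right hpc (norm_nonneg _)
    have e3 : |θ * q| * ‖e‖ ≤ ‖c‖ * ‖e‖ :=
      mul_le_mul_of_nonneg_right (hθq.trans hqc) (norm_nonneg _)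
    have e4 : W * ‖c‖ = ‖c‖ * ‖a‖ + ‖c‖ * ‖e‖ + ‖c‖ := by rw [hW]; ring
    rw [e4]
    linarith [norm_nonneg c]
  obtain ⟨i, hi, hile⟩ := hret x (hball1 (Metric.mem_ball.mpr (hxin.trans_le g2))) y
    (hball1 (Metric.mem_ball.mpr (hyin.trans_le g2)))
  obtain ⟨j, hj, hjle⟩ := hret y (hball1 (Metric.mem_ball.mpr (hyin.trans_le g2))) x
    (hball1 (Metric.mem_ball.mpr (hxin.trans_le g2)))
  set R := (F t y).re - (F t x).re with hR
  have hRp : κ * p ^ 2 - m * θ * |q| * |p| ≤ R * p := by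
    rcases le_total 0 p with h0 | h0
    · have h1 := (hinc j hj).1
      have h2 : f j t y - f j t x ≤ R := by rw [hR]; linarith
      exact h1.trans (mul_le_mul_of_nonneg_right h2 h0)
    · have h1 := (hinc i hi).1
      exact h1.trans (mul_le_mul_of_nonpos_right hile h0)
  have hRabs : |R| ≤ L * ‖A c‖ := by
    rw [abs_le]
    constructor
    · have h1 := (abs_le.mp (hinc j hj).2).1
      have h2 : f j t y - f j t x ≤ R := by rw [hR]; linarith
      linarith
    · exact hile.trans (abs_le.mp (hinc i hi).2).2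
  have hre' : (F t y - F t x).re = R := by rw [Complex.sub_re, hR]
  have him' : (F t y - F t x).im = θ * q := by rw [Complex.sub_im, hImF]
  have hcross : m * θ * |q| * |p| ≤ κ / 2 * p ^ 2 + θ / 2 * q ^ 2 := by
    have := cross_est (P := |p|) (Q := |q|) hκ hθ0 hθm
    rwa [sq_abs, sq_abs] at this
  constructor
  · have hin : inner ℝ (F t y - F t x) c = R * p + θ * q * q := by
      rw [inner_complex, hre', him']
    rw [hin, hcsq]
    refine min_est ?_
    linarith
  · refine (Complex.norm_le_abs_re_add_abs_im _).trans ?_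
    rw [hre', him']
    have h1 : L * ‖A c‖ ≤ L * (W * ‖c‖) := mul_le_mul_of_nonneg_left hnA hL
    have h2 : |θ * q| ≤ ‖c‖ := hθq.trans hqc
    have h3 : (L * W + 1) * ‖c‖ = L * (W * ‖c‖) + ‖c‖ := by ring
    rw [h3]
    linarith

end Vale.Agent.P268.T
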