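import Vale.Agent.P268.T.H654.Fold

/-!
# P268, topological half, block B6b: regularity at the zeros of the hairpin plate
-/

set_option linter.unusedSectionVars false

namespace Vale.Agent.P268.T

open Set Filter Topology

variable {T ι V : Type*} [TopologicalSpace T] [Fintype ι] [DecidableEq ι] [NormedAddCommGroup V]
  [InnerProductSpace ℝ V] {i₀ : ι} {v f h : V} {ε r R M K : ℝ} {s : Set T} {th u : T → ℝ}
  {t₀ : T} {x₀ : (ℝ × (ι → ℝ)) × V}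

/-- Growth of the slab front. -/
theorem slab_grows (hM : 0 < M) {c b : ℝ} {m : V} (h0 : 0 < x₀.1.1)
    (hb : b = 0 ∨ |x₀.1.2 i₀| < ‖x₀.1.2‖ ∨ 0 < x₀.1.2 i₀ * b) :
    GrK (M * c) s (fun _ (x : (ℝ × (ι → ℝ)) × V) => M * (‖x.1.2‖ - |x.1.1|)) t₀ x₀
      (lD i₀ c b m) := by
  obtain ⟨U, hU, hUb⟩ : ∃ U ∈ 𝓝 x₀, ∀ x ∈ U, 0 < x.1.1 ∧
      (b = 0 ∨ |x.1.2 i₀| < ‖x.1.2‖ ∨ 0 < x.1.2 i₀ * b) := by
    have c1 : Continuous fun x : (ℝ × (ι → ℝ)) × V => x.1.1 := by fun_prop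
    have c2 : Continuous fun x : (ℝ × (ι → ℝ)) × V => x.1.2 i₀ := by fun_prop
    have c3 : Continuous fun x : (ℝ × (ι → ℝ)) × V => ‖x.1.2‖ := by fun_prop
    have e1 : ∀ᶠ x in 𝓝 x₀, 0 < x.1.1 := c1.continuousAt.eventually (lt_mem_nhds h0)
    rcases hb with hb | hb | hb
    · exact ⟨_, e1, fun x hx => ⟨hx, Or.inl hb⟩⟩
    · have e2 : ∀ᶠ x in 𝓝 x₀, |x.1.2 i₀| < ‖x.1.2‖ :=
        (c2.abs.continuousAt).eventually_lt c3.continuousAt hb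
      exact ⟨_, e1.and e2, fun x hx => ⟨hx.1, Or.inr (Or.inl hx.2)⟩⟩
    · have e2 : ∀ᶠ x in 𝓝 x₀, 0 < x.1.2 i₀ * b :=
        (c2.mul continuous_const).continuousAt.eventually (lt_mem_nhds hb)
      exact ⟨_, e1.and e2, fun x hx => ⟨hx.1, Or.inr (Or.inr hx.2)⟩⟩
  refine ⟨U, hU, Eventually.of_forall fun t => GrowsOn.of_pos fun x hx τ hτ hxτ => ?_⟩
  obtain ⟨x1, x2⟩ := hUb x hx
  obtain ⟨y1, -⟩ := hUb _ hxτ
  show M * c * τ ≤ M * (‖(x + τ • lD i₀ c b m).1.2‖ - |(x + τ • lD i₀ c b m).1.1|) -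
    M * (‖x.1.2‖ - |x.1.1|)
  rw [abs_of_pos y1, abs_of_pos x1, lD_u]
  have e3 : (x + τ • lD i₀ c b m).1.2 = x.1.2 + (τ * b) • (Pi.single i₀ (1 : ℝ) : ι → ℝ) := by
    simp only [lD, Prod.smul_mk, smul_smul, Prod.fst_add, Prod.snd_add]
  rw [e3]
  have e4 : ‖x.1.2‖ ≤ ‖x.1.2 + (τ * b) • (Pi.single i₀ (1 : ℝ) : ι → ℝ)‖ := by
    refine norm_add_single (τ * b) ?_
    rcases x2 with h1 | h1 | h1
    · right; rw [h1]; simp
    · exact Or.inl h1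
    · right
      have : x.1.2 i₀ * (τ * b) = τ * (x.1.2 i₀ * b) := by ring
      rw [this]
      positivity
  nlinarith

/-- The conclusion: a common direction. -/
def LDir (i₀ : ι) (v f h : V) (ε r M K : ℝ) (s : Set T) (th u : T → ℝ) (t₀ : T)
    (x₀ : (ℝ × (ι → ℝ)) × V) : Prop :=
  ∃ (D : (ℝ × (ι → ℝ)) × V) (κ : ℝ), 0 < κ ∧ inner ℝ D.2 h = 0 ∧
    GrK κ s (fun t x => ε * ‖x.1‖ - ‖lH i₀ v f K r (th t) (u t) x‖) t₀ x₀ D ∧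
    (‖lY v x₀‖ = ε * ‖x₀.1‖ → GrK κ s (fun _ x => ε * ‖x.1‖ - ‖lY v x‖) t₀ x₀ D) ∧
    (‖x₀.1.2‖ = x₀.1.1 → GrK κ s (fun _ (x : (ℝ × (ι → ℝ)) × V) =>
      M * (‖x.1.2‖ - |x.1.1|)) t₀ x₀ D)

theorem g_grows {c b c₁ : ℝ} {m : V} (hc : 0 ≤ c) (hc₁ : c ≤ c₁) (hb₁ : |b| ≤ c₁) (hε : 0 < ε) :
    GrK (-(ε * c₁)) s (fun _ (x : (ℝ × (ι → ℝ)) × V) => ε * ‖x.1‖) t₀ x₀ (lD i₀ c b m) := by
  refine GrK.of_pos fun t ht x τ hτ => ?_
  have h1 := (abs_le.mp (lD_g (i₀ := i₀) (m := m) hc hc₁ hb₁ x hτ)).1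
  have h2 := mul_le_mul_of_nonneg_left h1 hε.le
  linarith

/-- Growth at the rim of the hairpin plate. -/
theorem rimH (hth : ∀ t ∈ s, th t ∈ Icc (0 : ℝ) 1)
    (hu : ∀ t ∈ s, u t ∈ Icc (-3 : ℝ) 0) (cth : ContinuousOn th s) (cu : ContinuousOn u s)
    (ht₀ : t₀ ∈ s) (hH : lH i₀ v f K r (th t₀) (u t₀) x₀ ≠ 0) {D : (ℝ × (ι → ℝ)) × V}
    {κ₁ κ₂ κ : ℝ}
    (h1 : ∃ U ∈ 𝓝 x₀, ∀ᶠ t in 𝓝[s] t₀, ∀ x ∈ U, ∀ τ : ℝ, 0 < τ → x + τ • D ∈ U →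
      inner ℝ (lH i₀ v f K r (th t₀) (u t₀) x₀) (lH i₀ v f K r (th t) (u t) (x + τ • D) -
        lH i₀ v f K r (th t) (u t) x) ≤
        -(κ₁ * ‖lH i₀ v f K r (th t₀) (u t₀) x₀‖ * τ))
    (h3 : GrK (-κ₂) s (fun _ (x : (ℝ × (ι → ℝ)) × V) => ε * ‖x.1‖) t₀ x₀ D)
    (hκ : κ < κ₁ - κ₂) :
    GrK κ s (fun t x => ε * ‖x.1‖ - ‖lH i₀ v f K r (th t) (u t) x‖) t₀ x₀ D := by
  obtain ⟨L, hL0, hL⟩ := (uLip_lH (i₀ := i₀) (v := v) (f := f) (K := K) (r := r) hth hu).inc D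
  refine GrK.rim (κ₁ := κ₁) (κ₂ := κ₂) (L := L)
    (z := fun t x => lH i₀ v f K r (th t) (u t) x) ?_ hH h1 ?_ h3 hκ
  · exact ContinuousOn.lH' (a := s ×ˢ univ) (θ := fun q : T × ((ℝ × (ι → ℝ)) × V) => th q.1)
      (u := fun q => u q.1) (x := fun q => q.2)
      (cth.comp continuousOn_fst fun _ hq => hq.1) (cu.comp continuousOn_fst fun _ hq => hq.1)
      continuousOn_snd (t₀, x₀) ⟨ht₀, mem_univ _⟩
  · refine ⟨univ, univ_mem, ?_⟩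
    filter_upwards [self_mem_nhdsWithin] with t ht x _ τ hτ _
    exact hL t ht x τ hτ

/-- Growth at the rim of the sheet `j`. -/
theorem rimY (hY : lY v x₀ ≠ 0) {D : (ℝ × (ι → ℝ)) × V} {κ₁ κ₂ κ : ℝ}
    (h1 : ∀ x : (ℝ × (ι → ℝ)) × V, ∀ τ : ℝ, 0 < τ →
      inner ℝ (lY v x₀) (lY v (x + τ • D) - lY v x) ≤ -(κ₁ * ‖lY v x₀‖ * τ))
    (h3 : GrK (-κ₂) s (fun _ (x : (ℝ × (ι → ℝ)) × V) => ε * ‖x.1‖) t₀ x₀ D)
    (hκ : κ < κ₁ - κ₂) :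
    GrK κ s (fun _ x => ε * ‖x.1‖ - ‖lY v x‖) t₀ x₀ D := by
  obtain ⟨L, hL0, hL⟩ := (uLip_lY (s := s) (v := v)).inc D
  have c1 : ContinuousWithinAt (fun p : T × ((ℝ × (ι → ℝ)) × V) => lY v p.2) (s ×ˢ univ)
      (t₀, x₀) := (continuous_lY.comp continuous_snd).continuousWithinAt
  have c2 : ∃ U ∈ 𝓝 x₀, ∀ᶠ _t in 𝓝[s] t₀, ∀ x ∈ U, ∀ τ : ℝ, 0 < τ → x + τ • D ∈ U →
      inner ℝ (lY v x₀) (lY v (x + τ • D) - lY v x) ≤ -(κ₁ * ‖lY v x₀‖ * τ) :=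
    ⟨univ, univ_mem, Eventually.of_forall fun t x _ τ hτ _ => h1 x τ hτ⟩
  have c3 : ∃ U ∈ 𝓝 x₀, ∀ᶠ _t in 𝓝[s] t₀, ∀ x ∈ U, ∀ τ : ℝ, 0 < τ → x + τ • D ∈ U →
      ‖lY v (x + τ • D) - lY v x‖ ≤ L * τ := by
    refine ⟨univ, univ_mem, ?_⟩
    filter_upwards [self_mem_nhdsWithin] with t ht x _ τ hτ _
    exact hL t ht x τ hτ
  exact GrK.rim (z := fun (_ : T) x => lY v x) c1 hY c2 c3 h3 hκ

/-- Points on the axis. -/
theorem left_dir0 (P : LPar v f h ε r R M K) (hth : ∀ t ∈ s, th t ∈ Icc (0 : ℝ) 1)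
    (hu : ∀ t ∈ s, u t ∈ Icc (-3 : ℝ) 0) (cth : ContinuousOn th s) (cu : ContinuousOn u s)
    (ht₀ : t₀ ∈ s) (h0 : 0 < x₀.1.1) (hp : ‖x₀.1.2‖ ≤ x₀.1.1)
    (hH : ‖lH i₀ v f K r (th t₀) (u t₀) x₀‖ = ε * ‖x₀.1‖) (hj : ε * ‖x₀.1‖ ≤ ‖lY v x₀‖)
    (hmu : lY v x₀ = lA v f x₀ • f) : LDir i₀ v f h ε r M K s th u t₀ x₀ := by
  have hK := P.Kpos
  have hε := P.hε
  obtain ⟨hc, hc₁, hcK⟩ := P.c0
  have hGe : ‖x₀.1‖ = x₀.1.1 := by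
    rw [Prod.norm_def, Real.norm_eq_abs, abs_of_pos h0, max_eq_left hp]
  have hG : 0 < ‖x₀.1‖ := by rw [hGe]; exact h0
  have hεG : 0 < ε * ‖x₀.1‖ := by positivity
  have hHe : lH i₀ v f K r (th t₀) (u t₀) x₀ = lW i₀ v f K r (th t₀) (u t₀) x₀ • f := by
    unfold lH
    rw [hmu, ← add_smul]
    congr 1
    ring
  have hWa : |lW i₀ v f K r (th t₀) (u t₀) x₀| = ε * ‖x₀.1‖ := by
    rw [← hH, hHe, norm_smul, P.hf, mul_one, Real.norm_eq_abs]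
  have hYa : ‖lY v x₀‖ = |lA v f x₀| := by
    rw [hmu, norm_smul, P.hf, mul_one, Real.norm_eq_abs]
  obtain ⟨σ, hσ, hWσ⟩ : ∃ σ : ℝ, (σ = 1 ∨ σ = -1) ∧
      lW i₀ v f K r (th t₀) (u t₀) x₀ = -(σ * (ε * ‖x₀.1‖)) := by
    rcases (abs_eq hεG.le).mp hWa with h1 | h1
    · exact ⟨-1, Or.inr rfl, by rw [h1]; ring⟩
    · exact ⟨1, Or.inl rfl, by rw [h1]; ring⟩
  obtain ⟨δ, b, hδ, hb, hgr, hAδ, hbp⟩ := choice ⟨hG, rfl, rfl, rfl, hσ, hWσ⟩ P hth hu cth cu ht₀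
    (by rw [← hYa]; exact hj)
  have hc0 : 0 < 1 / (24 * K) := by positivity
  have hεK : ε * (2 / K) ≤ 1 / 32 := by
    have h1 := P.hK
    have h2 := P.hr
    have h3 := norm_nonneg v
    rw [mul_div_assoc', div_le_iff₀ hK]
    linarith
  have hfh : inner ℝ (δ • f) h = 0 := by rw [real_inner_smul_left, P.fh, mul_zero]
  have hg := g_grows (i₀ := i₀) (s := s) (t₀ := t₀) (x₀ := x₀) (m := δ • f) hc hc₁ hb hε
  refine ⟨lD i₀ (1 / (24 * K)) b (δ • f), min (1 / 4) (M * (1 / (24 * K))),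
    lt_min (by norm_num) (mul_pos P.hM hc0), hfh, ?_, fun hj0 => ?_, fun hs0 => ?_⟩
  · -- the hairpin plate
    refine (rimH (κ₁ := 1 / 2) (κ := 1 / 4) hth hu cth cu ht₀ ?_ ?_ hg (by linarith)).mono
      (min_le_left _ _)
    · intro h1
      rw [h1, norm_zero] at hH
      exact hεG.ne hH
    · obtain ⟨U, hU, h1⟩ := hgr
      refine ⟨U, hU, h1.mono fun t ht x hx τ hτ hxτ => ?_⟩
      have h2 := ht.pos hx hτ hxτ
      rw [hH, hHe, real_inner_smul_left, real_inner_comm, inner_sub_left, inner_lH P.hf,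
        inner_lH P.hf, hWσ]
      have h3 := mul_le_mul_of_nonneg_left h2 hεG.le
      linarith
  · -- the sheet `j`
    have hAe : lA v f x₀ = -(δ * (ε * ‖x₀.1‖)) := hAδ (by rw [← hYa]; exact hj0)
    refine (rimY (κ₁ := 1 / 2) (κ := 1 / 4) ?_ ?_ hg (by linarith)).mono (min_le_left _ _)
    · intro h1
      rw [h1, norm_zero] at hj0
      exact hεG.ne hj0
    · intro x τ hτ
      have h1 := lA_inc' (i₀ := i₀) (m := δ • f) P hc hc₁ hb x hτ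
      rw [P.if] at h1
      have h2 : inner ℝ f (lY v (x + τ • lD i₀ (1 / (24 * K)) b (δ • f)) - lY v x) =
          lA v f (x + τ • lD i₀ (1 / (24 * K)) b (δ • f)) - lA v f x := by
        rw [real_inner_comm, inner_sub_left]; rfl
      rw [hj0, hmu, real_inner_smul_left, hAe, h2]
      have h3 : 2 / K * ‖v‖ * τ ≤ 1 / 32 * τ := by
        have h4 := P.c1 P.c1v (by positivity : (0:ℝ) ≤ 2 / K)
        have h5 : 0 ≤ 2 / K * (2 * r) := mul_nonneg (by positivity) (by linarith [P.rpos])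
        exact mul_le_mul_of_nonneg_right (by linarith) hτ.le
      obtain ⟨Δ, hΔ⟩ : ∃ Δ, Δ = lA v f (x + τ • lD i₀ (1 / (24 * K)) b (δ • f)) - lA v f x :=
        ⟨_, rfl⟩
      rw [← hΔ] at h1 ⊢
      have h6 : 1 / 2 * τ ≤ δ * Δ := by
        have h7 := abs_le.mp (h1.trans h3)
        rcases hδ with h8 | h8 <;> rw [h8] at h7 ⊢ <;> linarith
      have h9 := mul_le_mul_of_nonneg_left h6 hεG.le
      linarith
  · -- the front of the slab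
    refine (slab_grows P.hM h0 ?_).mono (min_le_right _ _)
    rw [hs0, ← hGe]
    exact hbp

theorem lY_fibre (x : (ℝ × (ι → ℝ)) × V) (w : V) : lY v (x.1, x.2 + w) = lY v x + w := by
  show x.2 + w - ‖x.1‖ • v = x.2 - ‖x.1‖ • v + w
  abel

theorem lH_fibre (x : (ℝ × (ι → ℝ)) × V) {w : V} (hw : inner ℝ w f = 0) (θ υ : ℝ) :
    lH i₀ v f K r θ υ (x.1, x.2 + w) = lH i₀ v f K r θ υ x + w := by
  have h1 : lA v f (x.1, x.2 + w) = lA v f x := by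
    unfold lA
    rw [lY_fibre, inner_add_left, hw, add_zero]
  have h2 : lW i₀ v f K r θ υ (x.1, x.2 + w) = lW i₀ v f K r θ υ x := by
    unfold lW lB
    rw [h1]
  unfold lH
  rw [h1, h2, lY_fibre]
  abel

/-- Points off the axis. -/
theorem left_dir1 (P : LPar v f h ε r R M K) (hth : ∀ t ∈ s, th t ∈ Icc (0 : ℝ) 1)
    (hu : ∀ t ∈ s, u t ∈ Icc (-3 : ℝ) 0) (cth : ContinuousOn th s) (cu : ContinuousOn u s)
    (ht₀ : t₀ ∈ s) (h0 : 0 < x₀.1.1)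
    (hH : ‖lH i₀ v f K r (th t₀) (u t₀) x₀‖ = ε * ‖x₀.1‖) (hx : inner ℝ x₀.2 h = 0)
    (hmu : lY v x₀ - lA v f x₀ • f ≠ 0) : LDir i₀ v f h ε r M K s th u t₀ x₀ := by
  have hε := P.hε
  have hG : 0 < ‖x₀.1‖ := by
    have h1 : |x₀.1.1| ≤ ‖x₀.1‖ := norm_fst_le x₀.1
    rw [abs_of_pos h0] at h1
    linarith
  have hεG : 0 < ε * ‖x₀.1‖ := by positivity
  obtain ⟨mu, hmue⟩ : ∃ mu, mu = lY v x₀ - lA v f x₀ • f := ⟨_, rfl⟩
  rw [← hmue] at hmu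
  have hmp : 0 < ‖mu‖ := norm_pos_iff.mpr hmu
  have hmf : inner ℝ mu f = 0 := by
    rw [hmue, inner_sub_left, real_inner_smul_left, real_inner_self_eq_norm_sq, P.hf]
    show lA v f x₀ - lA v f x₀ * 1 ^ 2 = 0
    ring
  have hmh : inner ℝ mu h = 0 := by
    rw [hmue, inner_sub_left, real_inner_smul_left, P.fh]
    unfold lY
    rw [inner_sub_left, real_inner_smul_left, hx, P.vh]
    ring
  have hfm : inner ℝ f mu = 0 := by rw [real_inner_comm]; exact hmf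
  have hYe : lY v x₀ = mu + lA v f x₀ • f := by rw [hmue]; abel
  have hHe : lH i₀ v f K r (th t₀) (u t₀) x₀ = mu + lW i₀ v f K r (th t₀) (u t₀) x₀ • f := by
    unfold lH
    rw [hYe, sub_smul]; abel
  obtain ⟨LH, hLH0, hLH⟩ := uLip_lH (i₀ := i₀) (v := v) (f := f) (K := K) (r := r) hth hu
  obtain ⟨LY, hLY0, hLY⟩ := uLip_lY (ι := ι) (s := s) (v := v)
  set κ₁ : ℝ := ‖mu‖ ^ 2 / (2 * (ε * ‖x₀.1‖)) with hκ₁
  have hκ₁0 : 0 < κ₁ := by positivity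
  have hκ₁e : κ₁ * (ε * ‖x₀.1‖) = ‖mu‖ ^ 2 / 2 := by rw [hκ₁]; field_simp
  obtain ⟨c, hc0, hc1, hc2⟩ : ∃ c : ℝ, 0 < c ∧ ε * ‖x₀.1‖ * ((LH + LY) * c) ≤ ‖mu‖ ^ 2 / 2 ∧
      ε * c ≤ κ₁ / 2 := by
    set q : ℝ := ε * ‖x₀.1‖ * (LH + LY) + 1 with hq
    have hq0 : 0 < q := by positivity
    refine ⟨min (‖mu‖ ^ 2 / 2 / q) (κ₁ / 2 / ε), lt_min (by positivity) (by positivity), ?_, ?_⟩
    · have h1 := min_le_left (‖mu‖ ^ 2 / 2 / q) (κ₁ / 2 / ε)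
      rw [le_div_iff₀ hq0] at h1
      have h2 : 0 < min (‖mu‖ ^ 2 / 2 / q) (κ₁ / 2 / ε) := lt_min (by positivity) (by positivity)
      calc ε * ‖x₀.1‖ * ((LH + LY) * min (‖mu‖ ^ 2 / 2 / q) (κ₁ / 2 / ε)) =
            min (‖mu‖ ^ 2 / 2 / q) (κ₁ / 2 / ε) * (ε * ‖x₀.1‖ * (LH + LY)) := by ring
        _ ≤ min (‖mu‖ ^ 2 / 2 / q) (κ₁ / 2 / ε) * q :=
            mul_le_mul_of_nonneg_left (by rw [hq]; linarith) h2.le
        _ ≤ _ := h1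
    · have h1 := min_le_right (‖mu‖ ^ 2 / 2 / q) (κ₁ / 2 / ε)
      rw [le_div_iff₀ hε] at h1
      linarith
  have hg := g_grows (i₀ := i₀) (s := s) (t₀ := t₀) (x₀ := x₀) (m := -mu) (b := 0) hc0.le
    le_rfl (by rw [abs_zero]; exact hc0.le) hε
  have hdec : ∀ (x : (ℝ × (ι → ℝ)) × V) (τ : ℝ), x + τ • lD i₀ c 0 (-mu) =
      ((x.1, x.2 + -(τ • mu)) : (ℝ × (ι → ℝ)) × V) + τ • lD i₀ c 0 0 := by
    intro x τ
    refine Prod.ext ?_ ?_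
    · simp [lD]
    · simp [lD]
  have hnD : ‖(lD i₀ c 0 (0 : V))‖ ≤ c := by
    refine max_le ((norm_lD_fst hc0.le).trans (max_le le_rfl ?_)) ?_
    · rw [abs_zero]; exact hc0.le
    · show ‖(0 : V)‖ ≤ c
      rw [norm_zero]; exact hc0.le
  have hinc : ∀ τ : ℝ, 0 < τ → ∀ (z : V), ‖z‖ = ε * ‖x₀.1‖ → inner ℝ z mu = ‖mu‖ ^ 2 →
      ∀ (w w' w'' : V) (L : ℝ), 0 ≤ L → L ≤ LH + LY → w' = w + -(τ • mu) →
      ‖w'' - w'‖ ≤ L * ‖τ • lD i₀ c 0 (0 : V)‖ →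
      inner ℝ z (w'' - w) ≤ -(κ₁ * ‖z‖ * τ) := by
    intro τ hτ z hz hzm w w' w'' L hL0 hL hw' hw''
    have e1 : w'' - w = (w'' - w') + -(τ • mu) := by rw [hw']; abel
    rw [e1, inner_add_right, inner_neg_right, real_inner_smul_right, hzm, hz, hκ₁e]
    have e2 : inner ℝ z (w'' - w') ≤ ε * ‖x₀.1‖ * ((LH + LY) * c) * τ := by
      have e4 : ‖w'' - w'‖ ≤ (LH + LY) * c * τ := by
        refine hw''.trans ?_
        rw [norm_smul, Real.norm_eq_abs, abs_of_pos hτ]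
        calc L * (τ * ‖(lD i₀ c 0 (0 : V))‖) ≤ (LH + LY) * (τ * c) :=
              mul_le_mul hL (mul_le_mul_of_nonneg_left hnD hτ.le) (by positivity) (by positivity)
          _ = _ := by ring
      calc inner ℝ z (w'' - w') ≤ ‖z‖ * ‖w'' - w'‖ := real_inner_le_norm _ _
        _ ≤ ε * ‖x₀.1‖ * ((LH + LY) * c * τ) := by
            rw [hz]; exact mul_le_mul_of_nonneg_left e4 hεG.le
        _ = _ := by ring
    have e3 := mul_le_mul_of_nonneg_right hc1 hτ.le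
    linarith
  have hzm1 : inner ℝ (lH i₀ v f K r (th t₀) (u t₀) x₀) mu = ‖mu‖ ^ 2 := by
    rw [hHe, inner_add_left, real_inner_smul_left, hfm, real_inner_self_eq_norm_sq]; ring
  have hzm2 : inner ℝ (lY v x₀) mu = ‖mu‖ ^ 2 := by
    rw [hYe, inner_add_left, real_inner_smul_left, hfm, real_inner_self_eq_norm_sq]; ring
  have hfib : ∀ τ : ℝ, inner ℝ (-(τ • mu)) f = 0 := fun τ => by
    rw [inner_neg_left, real_inner_smul_left, hmf]; ring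
  refine ⟨lD i₀ c 0 (-mu), min (κ₁ / 4) (M * c),
    lt_min (by positivity) (mul_pos P.hM hc0), by
      show inner ℝ (-mu) h = 0
      rw [inner_neg_left, hmh, neg_zero], ?_, fun hj0 => ?_, fun hs0 => ?_⟩
  · refine (rimH (κ₁ := κ₁) (κ := κ₁ / 4) hth hu cth cu ht₀ ?_ ?_ hg (by linarith)).mono
      (min_le_left _ _)
    · intro h1
      rw [h1, norm_zero] at hH
      exact hεG.ne hH
    · refine ⟨univ, univ_mem, ?_⟩
      filter_upwards [self_mem_nhdsWithin] with t ht x _ τ hτ _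
      have h2 := hLH t ht (x + τ • lD i₀ c 0 (-mu)) (x.1, x.2 + -(τ • mu))
      rw [hdec x τ, add_sub_cancel_left] at h2
      rw [hdec x τ]
      exact hinc τ hτ _ hH hzm1 _ _ _ LH hLH0 (by linarith)
        (lH_fibre x (hfib τ) (th t) (u t)) h2
  · refine (rimY (κ₁ := κ₁) (κ := κ₁ / 4) ?_ ?_ hg (by linarith)).mono (min_le_left _ _)
    · intro h1
      rw [h1, norm_zero] at hj0
      exact hεG.ne hj0
    · intro x τ hτ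
      have h2 := hLY t₀ ht₀ (x + τ • lD i₀ c 0 (-mu)) (x.1, x.2 + -(τ • mu))
      rw [hdec x τ, add_sub_cancel_left] at h2
      rw [hdec x τ]
      exact hinc τ hτ _ hj0 hzm2 _ _ _ LY hLY0 (by linarith) (lY_fibre x _) h2
  · exact (slab_grows P.hM h0 (Or.inl rfl)).mono (min_le_right _ _)

/-- **The common direction at a zero of the hairpin plate.** -/
theorem left_dir (P : LPar v f h ε r R M K) (hth : ∀ t ∈ s, th t ∈ Icc (0 : ℝ) 1)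
    (hu : ∀ t ∈ s, u t ∈ Icc (-3 : ℝ) 0) (cth : ContinuousOn th s) (cu : ContinuousOn u s)
    (ht₀ : t₀ ∈ s) (h0 : 0 < x₀.1.1) (hp : ‖x₀.1.2‖ ≤ x₀.1.1)
    (hH : ‖lH i₀ v f K r (th t₀) (u t₀) x₀‖ = ε * ‖x₀.1‖) (hj : ε * ‖x₀.1‖ ≤ ‖lY v x₀‖)
    (hx : inner ℝ x₀.2 h = 0) : LDir i₀ v f h ε r M K s th u t₀ x₀ := by
  by_cases hmu : lY v x₀ - lA v f x₀ • f = 0
  · exact left_dir0 P hth hu cth cu ht₀ h0 hp hH hj (sub_eq_zero.mp hmu)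
  · exact left_dir1 P hth hu cth cu ht₀ h0 hH hx hmu

/-- The real part near a zero of the hairpin plate. -/
noncomputable def lRe (i₀ : ι) (v f : V) (ε r R M K θ υ : ℝ) (x : (ℝ × (ι → ℝ)) × V) : ℝ :=
  max (max (min (R * ‖x.1‖ - ‖x.2‖) (M * (‖x.1.2‖ - |x.1.1|))) (ε * ‖x.1‖ - ‖lY v x‖))
    (ε * ‖x.1‖ - ‖lH i₀ v f K r θ υ x‖)

theorem uLip_lRe (hth : ∀ t ∈ s, th t ∈ Icc (0 : ℝ) 1) (hu : ∀ t ∈ s, u t ∈ Icc (-3 : ℝ) 0) :
    ULip s (fun t (x : (ℝ × (ι → ℝ)) × V) => lRe i₀ v f ε r R M K (th t) (u t) x) := by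
  refine ULip.max (ULip.max (ULip.min ?_ ?_) ?_) ?_
  · exact (uLip_g.const_mul R).sub (ULip.linear (ContinuousLinearMap.snd ℝ (ℝ × (ι → ℝ)) V)).norm
  · refine ULip.const_mul ?_ M
    exact (ULip.linear ((ContinuousLinearMap.snd ℝ ℝ (ι → ℝ)).comp
      (ContinuousLinearMap.fst ℝ (ℝ × (ι → ℝ)) V))).norm.sub uLip_u.abs
  · exact (uLip_g.const_mul ε).sub uLip_lY.norm
  · exact (uLip_g.const_mul ε).sub (uLip_lH hth hu).norm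

theorem norm_lt_of_lH (P : LPar v f h ε r R M K) {θ υ : ℝ} (hG : 0 < ‖x₀.1‖)
    (hH : ‖lH i₀ v f K r θ υ x₀‖ ≤ ε * ‖x₀.1‖) : ‖x₀.2‖ < R * ‖x₀.1‖ := by
  have hf := P.hf
  have hW : |lW i₀ v f K r θ υ x₀| ≤ ε * ‖x₀.1‖ := by
    have h1 := abs_real_inner_le_norm (lH i₀ v f K r θ υ x₀) f
    rw [inner_lH hf, hf, mul_one] at h1
    exact h1.trans hH
  have hB2 : lA v f x₀ - 2 * r * ‖x₀.1‖ ≤ lW i₀ v f K r θ υ x₀ :=
    (le_max_right _ _).trans (le_max_left _ _)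
  have hB3 : lT i₀ K r υ x₀.1 - lA v f x₀ ≤ lW i₀ v f K r θ υ x₀ := le_max_right _ _
  have hT : 0 ≤ lT i₀ K r υ x₀.1 := le_max_left _ _
  have hrG : 0 < r * ‖x₀.1‖ := mul_pos P.rpos hG
  obtain ⟨hW1, hW2⟩ := abs_le.mp hW
  have hA : |lA v f x₀| ≤ 2 * (r * ‖x₀.1‖) + ε * ‖x₀.1‖ := abs_le.mpr ⟨by linarith, by linarith⟩
  -- the part perpendicular to `f`
  have hm : ‖lY v x₀ - lA v f x₀ • f‖ ≤ ε * ‖x₀.1‖ := by
    have e1 : lH i₀ v f K r θ υ x₀ = (lY v x₀ - lA v f x₀ • f) + lW i₀ v f K r θ υ x₀ • f := by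
      unfold lH; rw [sub_smul]; abel
    have e2 : inner ℝ (lY v x₀ - lA v f x₀ • f) (lW i₀ v f K r θ υ x₀ • f) = 0 := by
      rw [real_inner_smul_right, inner_sub_left, real_inner_smul_left,
        real_inner_self_eq_norm_sq, hf]
      show _ * (lA v f x₀ - lA v f x₀ * 1 ^ 2) = 0
      ring
    have e3 := norm_add_sq_eq_norm_sq_add_norm_sq_real e2
    rw [← e1] at e3
    have e4 : ‖lY v x₀ - lA v f x₀ • f‖ * ‖lY v x₀ - lA v f x₀ • f‖ ≤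
        ‖lH i₀ v f K r θ υ x₀‖ * ‖lH i₀ v f K r θ υ x₀‖ := by
      rw [e3]
      nlinarith [norm_nonneg (lW i₀ v f K r θ υ x₀ • f)]
    exact (abs_le_of_sq_le_sq' (by nlinarith) (norm_nonneg _)).2.trans hH
  have e5 : x₀.2 = (lY v x₀ - lA v f x₀ • f) + lA v f x₀ • f + ‖x₀.1‖ • v := by
    unfold lY; abel
  have e6 : ‖x₀.2‖ ≤ ‖lY v x₀ - lA v f x₀ • f‖ + |lA v f x₀| + ‖x₀.1‖ * ‖v‖ := by
    calc ‖x₀.2‖ = ‖(lY v x₀ - lA v f x₀ • f) + lA v f x₀ • f + ‖x₀.1‖ • v‖ := by rw [← e5]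
      _ ≤ ‖lY v x₀ - lA v f x₀ • f‖ + ‖lA v f x₀ • f‖ + ‖‖x₀.1‖ • v‖ := norm_add₃_le
      _ = _ := by rw [norm_smul, norm_smul, hf, mul_one, Real.norm_eq_abs, norm_norm]
  have e7 := mul_lt_mul_of_pos_right P.hR hG
  nlinarith

/-- **Regularity at a zero of the hairpin plate.** -/
theorem left_regAt (P : LPar v f h ε r R M K) (hth : ∀ t ∈ s, th t ∈ Icc (0 : ℝ) 1)
    (hu : ∀ t ∈ s, u t ∈ Icc (-3 : ℝ) 0) (cth : ContinuousOn th s) (cu : ContinuousOn u s)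
    (ht₀ : t₀ ∈ s) {F : T → (ℝ × (ι → ℝ)) × V → ℂ}
    (hre : ∃ U ∈ 𝓝 x₀, ∀ᶠ t in 𝓝[s] t₀, ∀ x ∈ U,
      (F t x).re = lRe i₀ v f ε r R M K (th t) (u t) x)
    (him : ∃ U ∈ 𝓝 x₀, ∀ᶠ t in 𝓝[s] t₀, ∀ x ∈ U, (F t x).im = inner ℝ x.2 h)
    (hF : F t₀ x₀ = 0) (h0 : 0 < x₀.1.1)
    (hH : ‖lH i₀ v f K r (th t₀) (u t₀) x₀‖ = ε * ‖x₀.1‖) : RegAt s F t₀ x₀ := by
  have hG : 0 < ‖x₀.1‖ := by
    have h1 : |x₀.1.1| ≤ ‖x₀.1‖ := norm_fst_le x₀.1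
    rw [abs_of_pos h0] at h1
    linarith
  have hre0 : lRe i₀ v f ε r R M K (th t₀) (u t₀) x₀ = 0 := by
    obtain ⟨U, hU, h1⟩ := hre
    have h2 := h1.self_of_nhdsWithin ht₀ x₀ (mem_of_mem_nhds hU)
    rw [← h2, hF, Complex.zero_re]
  have hx : inner ℝ x₀.2 h = 0 := by
    obtain ⟨U, hU, h1⟩ := him
    have h2 := h1.self_of_nhdsWithin ht₀ x₀ (mem_of_mem_nhds hU)
    rw [← h2, hF, Complex.zero_im]
  have hR := norm_lt_of_lH P hG hH.le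
  have hj : ε * ‖x₀.1‖ ≤ ‖lY v x₀‖ := by
    have h1 := (le_max_right (min (R * ‖x₀.1‖ - ‖x₀.2‖) (M * (‖x₀.1.2‖ - |x₀.1.1|)))
      (ε * ‖x₀.1‖ - ‖lY v x₀‖)).trans (le_max_left _ (ε * ‖x₀.1‖ -
        ‖lH i₀ v f K r (th t₀) (u t₀) x₀‖))
    have h2 : ε * ‖x₀.1‖ - ‖lY v x₀‖ ≤ 0 := h1.trans hre0.le
    linarith
  have hs0 : min (R * ‖x₀.1‖ - ‖x₀.2‖) (M * (‖x₀.1.2‖ - |x₀.1.1|)) ≤ 0 :=
    ((le_max_left _ _).trans (le_max_left _ _)).trans hre0.le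
  have hs1 : M * (‖x₀.1.2‖ - |x₀.1.1|) ≤ 0 := by
    rcases min_le_iff.mp hs0 with h1 | h1
    · linarith
    · exact h1
  have hp : ‖x₀.1.2‖ ≤ x₀.1.1 := by
    by_contra hcon
    rw [not_le] at hcon
    rw [abs_of_pos h0] at hs1
    have := mul_pos P.hM (sub_pos.mpr hcon)
    linarith
  obtain ⟨D, κ, hκ, hDh, g1, g2, g3⟩ := left_dir P hth hu cth cu ht₀ h0 hp hH hj hx
  -- growth
  have cg : CtAt s (fun _ (x : (ℝ × (ι → ℝ)) × V) => ε * ‖x.1‖) t₀ x₀ :=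
    continuousWithinAt_const.mul ctAt_g
  have cH : CtAt s (fun t x => ε * ‖x.1‖ - ‖lH i₀ v f K r (th t) (u t) x‖) t₀ x₀ := by
    refine ContinuousWithinAt.sub cg (ContinuousWithinAt.norm ?_)
    exact ContinuousOn.lH' (a := s ×ˢ univ) (θ := fun q : T × ((ℝ × (ι → ℝ)) × V) => th q.1)
      (u := fun q => u q.1) (x := fun q => q.2)
      (cth.comp continuousOn_fst fun _ hq => hq.1) (cu.comp continuousOn_fst fun _ hq => hq.1)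
      continuousOn_snd (t₀, x₀) ⟨ht₀, mem_univ _⟩
  have cY : CtAt s (fun _ x => ε * ‖x.1‖ - ‖lY v x‖) t₀ x₀ :=
    ContinuousWithinAt.sub cg ((continuous_lY.comp continuous_snd).norm.continuousWithinAt)
  have cs1 : CtAt s (fun _ (x : (ℝ × (ι → ℝ)) × V) => R * ‖x.1‖ - ‖x.2‖) t₀ x₀ := by
    have : Continuous (fun p : T × ((ℝ × (ι → ℝ)) × V) => R * ‖p.2.1‖ - ‖p.2.2‖) := by fun_prop
    exact this.continuousWithinAt
  have cs2 : CtAt s (fun _ (x : (ℝ × (ι → ℝ)) × V) => M * (‖x.1.2‖ - |x.1.1|)) t₀ x₀ := by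
    have : Continuous (fun p : T × ((ℝ × (ι → ℝ)) × V) => M * (‖p.2.1.2‖ - |p.2.1.1|)) := by
      fun_prop
    exact this.continuousWithinAt
  have hgr : GrK κ s (fun t x => lRe i₀ v f ε r R M K (th t) (u t) x) t₀ x₀ D := by
    unfold lRe
    refine GrK.max' ((cs1.min cs2).max cY) cH (fun h1 => ?_) (fun _ => g1)
    have h2 : max (min (R * ‖x₀.1‖ - ‖x₀.2‖) (M * (‖x₀.1.2‖ - |x₀.1.1|)))
        (ε * ‖x₀.1‖ - ‖lY v x₀‖) = 0 := by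
      refine le_antisymm ((le_max_left _ _).trans hre0.le) ?_
      refine le_trans ?_ h1
      rw [hH, sub_self]
    refine GrK.max' (cs1.min cs2) cY (fun h3 => ?_) (fun h3 => g2 ?_)
    · rw [max_eq_left h3] at h2
      refine GrK.min' cs1 cs2 (fun h4 => ?_) (fun h4 => g3 ?_)
      · exfalso
        rw [min_eq_left h4] at h2
        linarith
      · rw [min_eq_right h4, abs_of_pos h0] at h2
        rcases mul_eq_zero.mp h2 with h5 | h5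
        · exact absurd h5 P.hM.ne'
        · linarith
    · rw [max_eq_right h3] at h2
      linarith
  obtain ⟨U, hU, hre'⟩ := hre
  have hcongr : ∃ U ∈ 𝓝 x₀, ∀ᶠ t in 𝓝[s] t₀, ∀ x ∈ U,
      lRe i₀ v f ε r R M K (th t) (u t) x = (F t x).re :=
    ⟨U, hU, hre'.mono fun t ht x hx => (ht x hx).symm⟩
  have hL : ∀ a, DirLip s (fun t x => (F t x).re) t₀ x₀ a := fun a =>
    ((uLip_lRe hth hu).locLip t₀ x₀ |>.dirLip a).congr hcongr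
  refine RegAt.of_real_zero ((innerSL ℝ h).comp (ContinuousLinearMap.snd ℝ (ℝ × (ι → ℝ)) V))
    (e := (0, h)) ?_ ?_ (a := D) ?_ ((hgr.grows hκ).congr hcongr) (hL D) (hL _)
  · show inner ℝ h h = (1 : ℝ)
    rw [real_inner_self_eq_norm_sq, P.hh]; norm_num
  · obtain ⟨U', hU', h1⟩ := him
    refine ⟨U', hU', h1.mono fun t ht x hx => ?_⟩
    rw [ht x hx]
    show inner ℝ x.2 h = inner ℝ h x.2
    rw [real_inner_comm]
  · show inner ℝ h D.2 = 0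
    rw [real_inner_comm]; exact hDh

end Vale.Agent.P268.T
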