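import Vale.Agent.P268.T.H654.LeftDef
import Vale.Agent.P268.T.N625.RealR

/-!
# P268, topological half, block B6b: growth of the real part at the zeros of the hairpin plate
-/

set_option linter.unusedSectionVars false

namespace Vale.Agent.P268.T

open Set Filter Topology

section Calc

variable {T E : Type*} [TopologicalSpace T] [NormedAddCommGroup E] [NormedSpace ℝ E]

/-- Uniformly Lipschitz families. -/
def ULip {F : Type*} [NormedAddCommGroup F] (s : Set T) (f : T → E → F) : Prop :=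
  ∃ L : ℝ, 0 ≤ L ∧ ∀ t ∈ s, ∀ x y, ‖f t x - f t y‖ ≤ L * ‖x - y‖

section lip
variable {F : Type*} [NormedAddCommGroup F] {s : Set T}

theorem ULip.const (c : T → F) : ULip s (fun t (_ : E) => c t) :=
  ⟨0, le_rfl, fun t _ x y => by simp⟩

theorem ULip.add {f g : T → E → F} (hf : ULip s f) (hg : ULip s g) :
    ULip s (fun t x => f t x + g t x) := by
  obtain ⟨L, h0, h⟩ := hf
  obtain ⟨L', h0', h'⟩ := hg
  refine ⟨L + L', add_nonneg h0 h0', fun t ht x y => ?_⟩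
  have e : f t x + g t x - (f t y + g t y) = (f t x - f t y) + (g t x - g t y) := by abel
  rw [e, add_mul]
  exact (norm_add_le _ _).trans (add_le_add (h t ht x y) (h' t ht x y))

theorem ULip.sub {f g : T → E → F} (hf : ULip s f) (hg : ULip s g) :
    ULip s (fun t x => f t x - g t x) := by
  obtain ⟨L, h0, h⟩ := hf
  obtain ⟨L', h0', h'⟩ := hg
  refine ⟨L + L', add_nonneg h0 h0', fun t ht x y => ?_⟩
  have e : f t x - g t x - (f t y - g t y) = (f t x - f t y) - (g t x - g t y) := by abel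
  rw [e, add_mul]
  exact (norm_sub_le _ _).trans (add_le_add (h t ht x y) (h' t ht x y))

theorem ULip.norm {f : T → E → F} (hf : ULip s f) : ULip s (fun t x => ‖f t x‖) := by
  obtain ⟨L, h0, h⟩ := hf
  exact ⟨L, h0, fun t ht x y => (abs_norm_sub_norm_le _ _).trans (h t ht x y)⟩

theorem ULip.max {f g : T → E → ℝ} (hf : ULip s f) (hg : ULip s g) :
    ULip s (fun t x => max (f t x) (g t x)) := by
  obtain ⟨L, h0, h⟩ := hf
  obtain ⟨L', h0', h'⟩ := hg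
  refine ⟨L + L', add_nonneg h0 h0', fun t ht x y => ?_⟩
  refine (abs_max_sub_max_le_max _ _ _ _).trans (max_le ?_ ?_)
  · refine (h t ht x y).trans (mul_le_mul_of_nonneg_right (by linarith) (norm_nonneg _))
  · refine (h' t ht x y).trans (mul_le_mul_of_nonneg_right (by linarith) (norm_nonneg _))

theorem ULip.min {f g : T → E → ℝ} (hf : ULip s f) (hg : ULip s g) :
    ULip s (fun t x => min (f t x) (g t x)) := by
  obtain ⟨L, h0, h⟩ := hf
  obtain ⟨L', h0', h'⟩ := hg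
  refine ⟨L + L', add_nonneg h0 h0', fun t ht x y => ?_⟩
  refine (abs_min_sub_min_le_max _ _ _ _).trans (max_le ?_ ?_)
  · refine (h t ht x y).trans (mul_le_mul_of_nonneg_right (by linarith) (norm_nonneg _))
  · refine (h' t ht x y).trans (mul_le_mul_of_nonneg_right (by linarith) (norm_nonneg _))

theorem ULip.abs {f : T → E → ℝ} (hf : ULip s f) : ULip s (fun t x => |f t x|) := hf.norm

theorem ULip.mul_left {f : T → E → ℝ} (hf : ULip s f) {c : T → ℝ} {C : ℝ}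
    (hc : ∀ t ∈ s, |c t| ≤ C) : ULip s (fun t x => c t * f t x) := by
  obtain ⟨L, h0, h⟩ := hf
  refine ⟨|C| * L, by positivity, fun t ht x y => ?_⟩
  rw [← mul_sub, norm_mul, Real.norm_eq_abs, mul_assoc]
  exact mul_le_mul ((hc t ht).trans (le_abs_self C)) (h t ht x y) (norm_nonneg _) (abs_nonneg _)

theorem ULip.const_mul {f : T → E → ℝ} (hf : ULip s f) (c : ℝ) :
    ULip s (fun t x => c * f t x) :=
  hf.mul_left (c := fun _ => c) (C := |c|) fun _ _ => le_rfl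

theorem ULip.linear {G : Type*} [NormedAddCommGroup G] [NormedSpace ℝ G] (l : E →L[ℝ] G) :
    ULip s (fun (_ : T) x => l x) := by
  refine ⟨‖l‖, norm_nonneg _, fun t _ x y => ?_⟩
  rw [← map_sub]
  exact l.le_opNorm _

theorem ULip.smul_vec {G : Type*} [NormedAddCommGroup G] [NormedSpace ℝ G] {f : T → E → ℝ}
    (hf : ULip s f) (v : G) : ULip s (fun t x => f t x • v) := by
  obtain ⟨L, h0, h⟩ := hf
  refine ⟨L * ‖v‖, by positivity, fun t ht x y => ?_⟩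
  rw [← sub_smul, norm_smul]
  calc ‖f t x - f t y‖ * ‖v‖ ≤ L * ‖x - y‖ * ‖v‖ :=
        mul_le_mul_of_nonneg_right (h t ht x y) (norm_nonneg _)
    _ = _ := by ring

theorem ULip.inner_vec {G : Type*} [NormedAddCommGroup G] [InnerProductSpace ℝ G]
    {f : T → E → G} (hf : ULip s f) (v : G) : ULip s (fun t x => (inner ℝ (f t x) v : ℝ)) := by
  obtain ⟨L, h0, h⟩ := hf
  refine ⟨L * ‖v‖, by positivity, fun t ht x y => ?_⟩
  rw [← inner_sub_left]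
  calc ‖(inner ℝ (f t x - f t y) v : ℝ)‖ ≤ ‖f t x - f t y‖ * ‖v‖ := norm_inner_le_norm _ _
    _ ≤ L * ‖x - y‖ * ‖v‖ := mul_le_mul_of_nonneg_right (h t ht x y) (norm_nonneg _)
    _ = _ := by ring

theorem ULip.locLip {f : T → E → F} (hf : ULip s f) (t₀ : T) (x₀ : E) : LocLip s f t₀ x₀ := by
  obtain ⟨L, h0, h⟩ := hf
  refine ⟨L, univ, univ_mem, ?_⟩
  filter_upwards [self_mem_nhdsWithin] with t ht x _ y _
  exact h t ht x y

end lip

/-- Growth with explicit rate. -/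
def GrK (κ : ℝ) (s : Set T) (f : T → E → ℝ) (t₀ : T) (x₀ : E) (a : E) : Prop :=
  ∃ U ∈ 𝓝 x₀, ∀ᶠ t in 𝓝[s] t₀, GrowsOn κ (f t) a U

variable {s : Set T} {f g : T → E → ℝ} {t₀ : T} {x₀ : E} {a : E} {κ κ' : ℝ}

theorem GrK.grows (h : GrK κ s f t₀ x₀ a) (hκ : 0 < κ) : Grows s f t₀ x₀ a := by
  obtain ⟨U, hU, h⟩ := h
  exact ⟨κ, hκ, U, hU, h⟩

theorem GrK.mono (h : GrK κ s f t₀ x₀ a) (hκ : κ' ≤ κ) : GrK κ' s f t₀ x₀ a := by
  obtain ⟨U, hU, h⟩ := h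
  exact ⟨U, hU, h.mono fun t ht => ht.mono_const hκ⟩

theorem GrK.max (hf : GrK κ s f t₀ x₀ a) (hg : GrK κ s g t₀ x₀ a) :
    GrK κ s (fun t x => max (f t x) (g t x)) t₀ x₀ a := by
  obtain ⟨U, hU, h⟩ := hf
  obtain ⟨V, hV, h'⟩ := hg
  refine ⟨U ∩ V, inter_mem hU hV, ?_⟩
  filter_upwards [h, h'] with t h1 h2
  exact (h1.mono inter_subset_left).max (h2.mono inter_subset_right)

theorem GrK.min (hf : GrK κ s f t₀ x₀ a) (hg : GrK κ s g t₀ x₀ a) :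
    GrK κ s (fun t x => min (f t x) (g t x)) t₀ x₀ a := by
  obtain ⟨U, hU, h⟩ := hf
  obtain ⟨V, hV, h'⟩ := hg
  refine ⟨U ∩ V, inter_mem hU hV, ?_⟩
  filter_upwards [h, h'] with t h1 h2
  exact (h1.mono inter_subset_left).min (h2.mono inter_subset_right)

theorem GrK.add (hf : GrK κ s f t₀ x₀ a) (hg : GrK κ' s g t₀ x₀ a) :
    GrK (κ + κ') s (fun t x => f t x + g t x) t₀ x₀ a := by
  obtain ⟨U, hU, h⟩ := hf
  obtain ⟨V, hV, h'⟩ := hg
  refine ⟨U ∩ V, inter_mem hU hV, ?_⟩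
  filter_upwards [h, h'] with t h1 h2
  exact (h1.mono inter_subset_left).add (h2.mono inter_subset_right)

theorem GrK.congr (hf : GrK κ s f t₀ x₀ a)
    (h : ∃ U ∈ 𝓝 x₀, ∀ᶠ t in 𝓝[s] t₀, ∀ x ∈ U, f t x = g t x) : GrK κ s g t₀ x₀ a := by
  obtain ⟨U, hU, h1⟩ := hf
  obtain ⟨V, hV, h2⟩ := h
  refine ⟨U ∩ V, inter_mem hU hV, ?_⟩
  filter_upwards [h1, h2] with t e1 e2 x hx τ hτ
  rw [← e2 _ hτ.2, ← e2 _ hx.2]
  exact e1 x hx.1 τ hτ.1

/-- In a maximum only the active branches matter. -/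
theorem GrK.max' (cf : CtAt s f t₀ x₀) (cg : CtAt s g t₀ x₀)
    (hf : g t₀ x₀ ≤ f t₀ x₀ → GrK κ s f t₀ x₀ a) (hg : f t₀ x₀ ≤ g t₀ x₀ → GrK κ s g t₀ x₀ a) :
    GrK κ s (fun t x => Max.max (f t x) (g t x)) t₀ x₀ a := by
  rcases lt_trichotomy (f t₀ x₀) (g t₀ x₀) with h | h | h
  · obtain ⟨U, hU, h1⟩ := cf.ev_lt cg h
    exact (hg h.le).congr ⟨U, hU, h1.mono fun t ht x hx => (max_eq_right (ht x hx).le).symm⟩
  · exact (hf h.ge).max (hg h.le)
  · obtain ⟨U, hU, h1⟩ := cg.ev_lt cf h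
    exact (hf h.le).congr ⟨U, hU, h1.mono fun t ht x hx => (max_eq_left (ht x hx).le).symm⟩

/-- In a minimum only the active branches matter. -/
theorem GrK.min' (cf : CtAt s f t₀ x₀) (cg : CtAt s g t₀ x₀)
    (hf : f t₀ x₀ ≤ g t₀ x₀ → GrK κ s f t₀ x₀ a) (hg : g t₀ x₀ ≤ f t₀ x₀ → GrK κ s g t₀ x₀ a) :
    GrK κ s (fun t x => Min.min (f t x) (g t x)) t₀ x₀ a := by
  rcases lt_trichotomy (f t₀ x₀) (g t₀ x₀) with h | h | h
  · obtain ⟨U, hU, h1⟩ := cf.ev_lt cg h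
    exact (hf h.le).congr ⟨U, hU, h1.mono fun t ht x hx => (min_eq_left (ht x hx).le).symm⟩
  · exact (hf h.le).min (hg h.ge)
  · obtain ⟨U, hU, h1⟩ := cg.ev_lt cf h
    exact (hg h.le).congr ⟨U, hU, h1.mono fun t ht x hx => (min_eq_right (ht x hx).le).symm⟩

theorem CtAt.max (cf : CtAt s f t₀ x₀) (cg : CtAt s g t₀ x₀) :
    CtAt s (fun t x => Max.max (f t x) (g t x)) t₀ x₀ := ContinuousWithinAt.sup cf cg

theorem CtAt.min (cf : CtAt s f t₀ x₀) (cg : CtAt s g t₀ x₀) :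
    CtAt s (fun t x => Min.min (f t x) (g t x)) t₀ x₀ := ContinuousWithinAt.inf cf cg

theorem CtAt.neg (cf : CtAt s f t₀ x₀) : CtAt s (fun t x => -f t x) t₀ x₀ :=
  ContinuousWithinAt.neg cf

/-- Growth from positive increments, globally. -/
theorem GrK.of_pos (h : ∀ t ∈ s, ∀ x, ∀ τ : ℝ, 0 < τ → κ * τ ≤ f t (x + τ • a) - f t x) :
    GrK κ s f t₀ x₀ a := by
  refine ⟨univ, univ_mem, ?_⟩
  filter_upwards [self_mem_nhdsWithin] with t ht
  exact GrowsOn.of_pos fun x _ τ hτ _ => h t ht x τ hτ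

/-- **Growth at the rim** of a plate with radius `r` and vector `z`. -/
theorem GrK.rim {V : Type*} [NormedAddCommGroup V] [InnerProductSpace ℝ V]
    {z : T → E → V} {r : T → E → ℝ}
    (cz : ContinuousWithinAt (fun p : T × E => z p.1 p.2) (s ×ˢ univ) (t₀, x₀))
    (hz : z t₀ x₀ ≠ 0) {κ₁ κ₂ L κ : ℝ}
    (h1 : ∃ U ∈ 𝓝 x₀, ∀ᶠ t in 𝓝[s] t₀, ∀ x ∈ U, ∀ τ : ℝ, 0 < τ → x + τ • a ∈ U →
      inner ℝ (z t₀ x₀) (z t (x + τ • a) - z t x) ≤ -(κ₁ * ‖z t₀ x₀‖ * τ))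
    (h2 : ∃ U ∈ 𝓝 x₀, ∀ᶠ t in 𝓝[s] t₀, ∀ x ∈ U, ∀ τ : ℝ, 0 < τ → x + τ • a ∈ U →
      ‖z t (x + τ • a) - z t x‖ ≤ L * τ)
    (h3 : GrK (-κ₂) s r t₀ x₀ a) (hκ : κ < κ₁ - κ₂) :
    GrK κ s (fun t x => r t x - ‖z t x‖) t₀ x₀ a := by
  obtain ⟨U1, hU1, h1⟩ := h1
  obtain ⟨U2, hU2, h2⟩ := h2
  obtain ⟨U3, hU3, h3⟩ := h3
  have hz0 : 0 < ‖z t₀ x₀‖ := norm_pos_iff.mpr hz
  obtain ⟨δ, hδ, hδL⟩ : ∃ δ : ℝ, 0 < δ ∧ δ * |L| ≤ κ₁ - κ₂ - κ := by
    refine ⟨(κ₁ - κ₂ - κ) / (|L| + 1), div_pos (by linarith) (by positivity), ?_⟩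
    rw [div_mul_eq_mul_div, div_le_iff₀ (by positivity)]
    have h0 : 0 ≤ κ₁ - κ₂ - κ := by linarith
    nlinarith [abs_nonneg L]
  have h4 := norm_incr hz hδ
  rw [nhds_prod_eq, eventually_prod_iff] at h4
  obtain ⟨pa, ha', pb, hb', hab⟩ := h4
  have c5 : ∀ᶠ p : T × E in 𝓝[s ×ˢ univ] (t₀, x₀), pa (z p.1 p.2) ∧ pb (z p.1 p.2) :=
    cz.eventually (ha'.and hb')
  obtain ⟨U4, hU4, h4⟩ := ev_prod (Q := fun t x => pa (z t x) ∧ pb (z t x)) c5
  refine ⟨U1 ∩ U2 ∩ (U3 ∩ U4), inter_mem (inter_mem hU1 hU2) (inter_mem hU3 hU4), ?_⟩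
  filter_upwards [h1, h2, h3, h4] with t e1 e2 e3 e4
  refine GrowsOn.of_pos fun x hx τ hτ hxτ => ?_
  have i1 := e1 x hx.1.1 τ hτ hxτ.1.1
  have i2 := e2 x hx.1.2 τ hτ hxτ.1.2
  have i3 := e3.pos hx.2.1 hτ hxτ.2.1
  have i4 := hab (e4 x hx.2.2).1 (e4 _ hxτ.2.2).2
  simp only at i4
  have i5 : inner ℝ (z t₀ x₀) (z t (x + τ • a) - z t x) / ‖z t₀ x₀‖ ≤ -(κ₁ * τ) := by
    rw [div_le_iff₀ hz0]
    calc _ ≤ _ := i1
      _ = _ := by ring
  have i6 : δ * ‖z t (x + τ • a) - z t x‖ ≤ (κ₁ - κ₂ - κ) * τ := by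
    calc δ * ‖z t (x + τ • a) - z t x‖ ≤ δ * (|L| * τ) :=
          mul_le_mul_of_nonneg_left (i2.trans (mul_le_mul_of_nonneg_right (le_abs_self L) hτ.le))
            hδ.le
      _ = δ * |L| * τ := by ring
      _ ≤ _ := mul_le_mul_of_nonneg_right hδL hτ.le
  have i7 := (abs_le.mp i4).2
  have i8 : κ * τ = κ₁ * τ - κ₂ * τ - (κ₁ - κ₂ - κ) * τ := by ring
  have i9 : -κ₂ * τ = -(κ₂ * τ) := by ring
  rw [i8]
  rw [i9] at i3
  linarith

end Calc

section Left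

variable {T ι V : Type*} [TopologicalSpace T] [Fintype ι] [DecidableEq ι] [NormedAddCommGroup V]
  [InnerProductSpace ℝ V]

/-- The parameters of the splitting. -/
structure LPar (v f h : V) (ε r R M K : ℝ) : Prop where
  hf : ‖f‖ = 1
  hh : ‖h‖ = 1
  fh : inner ℝ f h = 0
  vh : inner ℝ v h = 0
  hε : 0 < ε
  hr : 16 * ε ≤ r
  hR : ‖v‖ + 2 * r + 2 * ε < R
  hM : 0 < M
  hK : 64 * (‖v‖ + 2 * r) ≤ K

/-- A direction: `-c` in the coordinate `u₀`, `b` in the coordinate `p i₀`, `m` in the fibre. -/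
noncomputable def lD (i₀ : ι) (c b : ℝ) (m : V) : (ℝ × (ι → ℝ)) × V :=
  ((-c, b • Pi.single i₀ (1 : ℝ)), m)

variable {i₀ : ι} {v f h : V} {ε r R M K : ℝ}

theorem norm_lD_fst {c b : ℝ} {m : V} (hc : 0 ≤ c) : ‖(lD i₀ c b m).1‖ ≤ max c |b| := by
  show max ‖-c‖ ‖b • Pi.single i₀ (1 : ℝ)‖ ≤ _
  rw [norm_neg, Real.norm_eq_abs, abs_of_nonneg hc, norm_smul, Real.norm_eq_abs]
  refine max_le_max le_rfl ?_
  have : ‖(Pi.single i₀ (1 : ℝ) : ι → ℝ)‖ ≤ 1 := by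
    refine (pi_norm_le_iff_of_nonneg zero_le_one).mpr fun j => ?_
    by_cases hj : j = i₀
    · subst hj; simp
    · rw [Pi.single_eq_of_ne hj]; simp
  calc |b| * ‖(Pi.single i₀ (1 : ℝ) : ι → ℝ)‖ ≤ |b| * 1 :=
        mul_le_mul_of_nonneg_left this (abs_nonneg _)
    _ = _ := mul_one _

/-- increment of the gauge -/
theorem lD_g {c b : ℝ} {m : V} (hc : 0 ≤ c) {c₁ : ℝ} (hc₁ : c ≤ c₁) (hb₁ : |b| ≤ c₁)
    (x : (ℝ × (ι → ℝ)) × V) {τ : ℝ} (hτ : 0 < τ) :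
    |‖(x + τ • lD i₀ c b m).1‖ - ‖x.1‖| ≤ c₁ * τ := by
  refine (abs_norm_sub_norm_le _ _).trans ?_
  have e : (x + τ • lD i₀ c b m).1 - x.1 = τ • (lD i₀ c b m).1 := by
    rw [Prod.fst_add, Prod.smul_fst]; abel
  rw [e, norm_smul, Real.norm_eq_abs, abs_of_pos hτ, mul_comm]
  exact mul_le_mul_of_nonneg_right ((norm_lD_fst hc).trans (max_le hc₁ hb₁)) hτ.le

theorem lD_p {c b : ℝ} {m : V} (x : (ℝ × (ι → ℝ)) × V) (τ : ℝ) :
    (x + τ • lD i₀ c b m).1.2 i₀ = x.1.2 i₀ + τ * b := by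
  simp [lD]

theorem lD_u {c b : ℝ} {m : V} (x : (ℝ × (ι → ℝ)) × V) (τ : ℝ) :
    (x + τ • lD i₀ c b m).1.1 = x.1.1 - τ * c := by
  simp [lD]; ring

theorem lD_v {c b : ℝ} {m : V} (x : (ℝ × (ι → ℝ)) × V) (τ : ℝ) :
    (x + τ • lD i₀ c b m).2 = x.2 + τ • m := by
  simp [lD]

theorem lY_inc {c b : ℝ} {m : V} (x : (ℝ × (ι → ℝ)) × V) (τ : ℝ) :
    lY v (x + τ • lD i₀ c b m) - lY v x =
      τ • m - (‖(x + τ • lD i₀ c b m).1‖ - ‖x.1‖) • v := by
  unfold lY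
  rw [lD_v, sub_smul]
  abel

theorem lA_inc {c b : ℝ} {m : V} (x : (ℝ × (ι → ℝ)) × V) (τ : ℝ) :
    lA v f (x + τ • lD i₀ c b m) - lA v f x =
      τ * inner ℝ m f - (‖(x + τ • lD i₀ c b m).1‖ - ‖x.1‖) * inner ℝ v f := by
  unfold lA
  rw [← inner_sub_left, lY_inc, inner_sub_left, real_inner_smul_left, real_inner_smul_left]

theorem inner_lH (hf : ‖f‖ = 1) (θ u : ℝ) (x : (ℝ × (ι → ℝ)) × V) :
    inner ℝ (lH i₀ v f K r θ u x) f = lW i₀ v f K r θ u x := by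
  unfold lH
  rw [inner_add_left, real_inner_smul_left, real_inner_self_eq_norm_sq, hf]
  show lA v f x + _ = _
  ring

/-! ### The branches -/

section Branch

variable {c b c₁ : ℝ} {m : V} {s : Set T} {th u : T → ℝ} {t₀ : T} {x₀ : (ℝ × (ι → ℝ)) × V}

theorem LPar.Kpos (P : LPar v f h ε r R M K) : 0 < K := by
  have := P.hK
  have := P.hε
  have := P.hr
  have := norm_nonneg v
  linarith

theorem LPar.rpos (P : LPar v f h ε r R M K) : 0 < r := by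
  have := P.hε
  have := P.hr
  linarith

theorem LPar.c1 (P : LPar v f h ε r R M K) (h1 : c₁ * K ≤ 2) (h0 : 0 ≤ c₁) :
    c₁ * ‖v‖ + c₁ * (2 * r) ≤ 1 / 32 := by
  have h2 : c₁ * (64 * (‖v‖ + 2 * r)) ≤ c₁ * K := mul_le_mul_of_nonneg_left P.hK h0
  nlinarith

theorem lA_inc' (P : LPar v f h ε r R M K) (hc : 0 ≤ c) (hc₁ : c ≤ c₁) (hb₁ : |b| ≤ c₁)
    (x : (ℝ × (ι → ℝ)) × V) {τ : ℝ} (hτ : 0 < τ) :
    |lA v f (x + τ • lD i₀ c b m) - lA v f x - τ * inner ℝ m f| ≤ c₁ * ‖v‖ * τ := by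
  rw [lA_inc]
  have e : τ * inner ℝ m f - (‖(x + τ • lD i₀ c b m).1‖ - ‖x.1‖) * inner ℝ v f -
      τ * inner ℝ m f = -((‖(x + τ • lD i₀ c b m).1‖ - ‖x.1‖) * inner ℝ v f) := by ring
  rw [e, abs_neg, abs_mul]
  have h1 := lD_g (i₀ := i₀) (m := m) hc hc₁ hb₁ x hτ
  have h2 : |(inner ℝ v f : ℝ)| ≤ ‖v‖ := by
    have := abs_real_inner_le_norm v f
    rwa [P.hf, mul_one] at this
  calc _ ≤ c₁ * τ * ‖v‖ := mul_le_mul h1 h2 (abs_nonneg _) ((abs_nonneg _).trans h1)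
    _ = _ := by ring

theorem branch1 (P : LPar v f h ε r R M K) (hs : ∀ t ∈ s, th t ∈ Icc (0 : ℝ) 1) (hc : 0 ≤ c)
    (hc₁ : c ≤ c₁) (hb₁ : |b| ≤ c₁) (hK : c₁ * K ≤ 2) {σ : ℝ} (hσ : |σ| = 1)
    (hb : K * b = 2 * σ) (hm : |(inner ℝ m f : ℝ)| ≤ 1) :
    GrK (1 / 2) s (fun t x => σ * lB i₀ v f K r (th t) x) t₀ x₀ (lD i₀ c b m) := by
  refine GrK.of_pos fun t ht x τ hτ => ?_
  obtain ⟨h0, h1⟩ := hs t ht
  have hc10 : 0 ≤ c₁ := hc.trans hc₁
  have g1 := lD_g (i₀ := i₀) (m := m) hc hc₁ hb₁ x hτ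
  have a1 := lA_inc' (i₀ := i₀) (m := m) P hc hc₁ hb₁ x hτ
  have q1 := P.c1 hK hc10
  have hr := P.rpos
  unfold lB
  rw [lD_p]
  set x' := x + τ • lD i₀ c b m with hx'
  set A := lA v f x
  set A' := lA v f x'
  set G := ‖x.1‖
  set G' := ‖x'.1‖
  set θ := th t
  have e1 : |A' - A| ≤ (1 + c₁ * ‖v‖) * τ := by
    have e2 : |A' - A| ≤ |A' - A - τ * inner ℝ m f| + |τ * inner ℝ m f| := by
      have := abs_add_le (A' - A - τ * inner ℝ m f) (τ * inner ℝ m f)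
      rwa [sub_add_cancel] at this
    rw [abs_mul, abs_of_pos hτ] at e2
    have e3 : τ * |(inner ℝ m f : ℝ)| ≤ τ * 1 := mul_le_mul_of_nonneg_left hm hτ.le
    nlinarith
  have e2 : abs (abs (A' - 3 / 2 * r * G') - abs (A - 3 / 2 * r * G)) ≤
      (1 + c₁ * ‖v‖) * τ + c₁ * (2 * r) * τ := by
    refine (abs_abs_sub_abs_le_abs_sub _ _).trans ?_
    have e3 : A' - 3 / 2 * r * G' - (A - 3 / 2 * r * G) = (A' - A) - 3 / 2 * r * (G' - G) := by
      ring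
    rw [e3]
    refine (abs_sub _ _).trans ?_
    refine add_le_add e1 ?_
    rw [abs_mul, abs_of_pos (by positivity : (0:ℝ) < 3 / 2 * r)]
    calc 3 / 2 * r * |G' - G| ≤ 3 / 2 * r * (c₁ * τ) :=
          mul_le_mul_of_nonneg_left g1 (by positivity)
      _ ≤ _ := by
        have : 0 ≤ r * (c₁ * τ) := by positivity
        nlinarith
  have e3 : abs (((1 - θ) * A' + θ * abs (A' - 3 / 2 * r * G')) -
      ((1 - θ) * A + θ * abs (A - 3 / 2 * r * G))) ≤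
      (1 + c₁ * ‖v‖) * τ + c₁ * (2 * r) * τ := by
    have e4 : ((1 - θ) * A' + θ * abs (A' - 3 / 2 * r * G')) -
        ((1 - θ) * A + θ * abs (A - 3 / 2 * r * G)) =
        (1 - θ) * (A' - A) + θ * (abs (A' - 3 / 2 * r * G') - abs (A - 3 / 2 * r * G)) := by ring
    rw [e4]
    refine (abs_add_le _ _).trans ?_
    rw [abs_mul, abs_mul, abs_of_nonneg h0, abs_of_nonneg (by linarith : 0 ≤ 1 - θ)]
    have i1 := mul_le_mul_of_nonneg_left e1 (by linarith : 0 ≤ 1 - θ)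
    have i2 := mul_le_mul_of_nonneg_left e2 h0
    have i3 : 0 ≤ (1 - θ) * (c₁ * (2 * r) * τ) := by
      have : 0 ≤ 1 - θ := by linarith
      positivity
    nlinarith
  have e5 : ((1 + c₁ * ‖v‖) * τ + c₁ * (2 * r) * τ) ≤ 33 / 32 * τ := by nlinarith
  set X' := (1 - θ) * A' + θ * |A' - 3 / 2 * r * G'|
  set X := (1 - θ) * A + θ * |A - 3 / 2 * r * G|
  have e6 : |σ * (X' - X)| ≤ 33 / 32 * τ := by
    rw [abs_mul, hσ, one_mul]
    exact e3.trans e5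
  have e7 := (abs_le.mp e6).1
  have e8 : σ * (K * (x.1.2 i₀ + τ * b) + X') - σ * (K * x.1.2 i₀ + X) =
      σ * (K * b) * τ + σ * (X' - X) := by ring
  rw [e8, hb]
  have e9 : σ * (2 * σ) = 2 := by
    have : σ * σ = |σ| * |σ| := (abs_mul_abs_self σ).symm
    rw [hσ] at this
    linarith
  rw [e9]
  linarith

theorem branch2 (P : LPar v f h ε r R M K) (hc : 0 ≤ c)
    (hc₁ : c ≤ c₁) (hb₁ : |b| ≤ c₁) (hK : c₁ * K ≤ 2) {σ : ℝ} (hσ : |σ| = 1)
    (hm : σ * inner ℝ m f = 1) :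
    GrK (1 / 2) s (fun _ x => σ * (lA v f x - 2 * r * ‖x.1‖)) t₀ x₀ (lD i₀ c b m) := by
  refine GrK.of_pos fun t ht x τ hτ => ?_
  have hc10 : 0 ≤ c₁ := hc.trans hc₁
  have g1 := lD_g (i₀ := i₀) (m := m) hc hc₁ hb₁ x hτ
  have a1 := lA_inc' (i₀ := i₀) (m := m) P hc hc₁ hb₁ x hτ
  have q1 := P.c1 hK hc10
  have hr := P.rpos
  set x' := x + τ • lD i₀ c b m with hx'
  set A := lA v f x
  set A' := lA v f x'
  set G := ‖x.1‖
  set G' := ‖x'.1‖
  have e1 : σ * (A' - 2 * r * G') - σ * (A - 2 * r * G) =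
      σ * inner ℝ m f * τ + σ * (A' - A - τ * inner ℝ m f) - σ * (2 * r * (G' - G)) := by ring
  rw [e1, hm]
  have e2 : |σ * (A' - A - τ * inner ℝ m f)| ≤ c₁ * ‖v‖ * τ := by
    rw [abs_mul, hσ, one_mul]; exact a1
  have e3 : |σ * (2 * r * (G' - G))| ≤ 2 * r * (c₁ * τ) := by
    rw [abs_mul, hσ, one_mul, abs_mul, abs_of_pos (by positivity : (0:ℝ) < 2 * r)]
    exact mul_le_mul_of_nonneg_left g1 (by positivity)
  have e4 := (abs_le.mp e2).1
  have e5 := (abs_le.mp e3).2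
  nlinarith

theorem clamp_ge {a b a' b' d : ℝ} (hd : 0 ≤ d) (ha : a - d ≤ a') (hb : b - d ≤ b') :
    max 0 (min a b) - d ≤ max 0 (min a' b') := by
  rcases le_total (min a b) 0 with h | h
  · rw [max_eq_left h]
    have := le_max_left 0 (min a' b')
    linarith
  · rw [max_eq_right h]
    refine le_trans ?_ (le_max_right _ _)
    refine le_min ?_ ?_
    · linarith [min_le_left a b]
    · linarith [min_le_right a b]

theorem lT_inc (P : LPar v f h ε r R M K) {u : ℝ} (hu : u ∈ Icc (-3 : ℝ) 0) (hc : 0 ≤ c)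
    (hc₁ : c ≤ c₁) (hb₁ : |b| ≤ c₁) (hK : c₁ * K ≤ 2) (hcK : 24 * (K * c) ≤ 1)
    (x : (ℝ × (ι → ℝ)) × V) {τ : ℝ} (hτ : 0 < τ) :
    (0 ≤ b → lT i₀ K r u x.1 - 1 / 8 * τ ≤ lT i₀ K r u (x + τ • lD i₀ c b m).1) ∧
    (b ≤ 0 → lT i₀ K r u (x + τ • lD i₀ c b m).1 - 1 / 8 * τ ≤ lT i₀ K r u x.1) := by
  have hc10 : 0 ≤ c₁ := hc.trans hc₁
  have g1 := lD_g (i₀ := i₀) (m := m) hc hc₁ hb₁ x hτ
  have q1 := P.c1 hK hc10
  have hr := P.rpos
  have hKp := P.Kpos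
  have q2 : 0 ≤ c₁ * ‖v‖ := by positivity
  obtain ⟨g2, g3⟩ := abs_le.mp g1
  obtain ⟨u1, u2⟩ := hu
  have g4 : r * (c₁ * τ) ≤ 1 / 8 * τ := by nlinarith
  have g5 := mul_le_mul_of_nonneg_left g2 hr.le
  have g6 := mul_le_mul_of_nonneg_left g3 hr.le
  have hKc : 0 ≤ K * c := by positivity
  have w1 : K * c * τ * -u ≤ 1 / 8 * τ := by
    have : K * c * τ * -u ≤ K * c * τ * 3 :=
      mul_le_mul_of_nonneg_left (by linarith) (by positivity)
    nlinarith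
  have w2 : 0 ≤ K * c * τ * -u := mul_nonneg (by positivity) (by linarith)
  have key : K * ((x + τ • lD i₀ c b m).1.2 i₀ - u * (x + τ • lD i₀ c b m).1.1) =
      K * (x.1.2 i₀ - u * x.1.1) + K * b * τ - K * c * τ * -u := by
    rw [lD_p, lD_u]; ring
  constructor
  · intro hb
    refine clamp_ge (by linarith) ?_ ?_
    · linarith
    · rw [key]
      have : 0 ≤ K * b * τ := by positivity
      linarith
  · intro hb
    refine clamp_ge (by linarith) ?_ ?_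
    · linarith
    · rw [key]
      have : 0 ≤ K * -b * τ := mul_nonneg (mul_nonneg hKp.le (by linarith)) hτ.le
      linarith

theorem branch3p (P : LPar v f h ε r R M K) (hs : ∀ t ∈ s, u t ∈ Icc (-3 : ℝ) 0) (hc : 0 ≤ c)
    (hc₁ : c ≤ c₁) (hb₁ : |b| ≤ c₁) (hK : c₁ * K ≤ 2) (hcK : 24 * (K * c) ≤ 1) (hb : 0 ≤ b)
    (hm : inner ℝ m f = -1) :
    GrK (1 / 2) s (fun t x => lT i₀ K r (u t) x.1 - lA v f x) t₀ x₀ (lD i₀ c b m) := by
  refine GrK.of_pos fun t ht x τ hτ => ?_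
  have hc10 : 0 ≤ c₁ := hc.trans hc₁
  have t1 := (lT_inc (i₀ := i₀) (m := m) P (hs t ht) hc hc₁ hb₁ hK hcK x hτ).1 hb
  have a1 := lA_inc' (i₀ := i₀) (m := m) P hc hc₁ hb₁ x hτ
  have q1 := P.c1 hK hc10
  have hr := P.rpos
  have q2 : 0 ≤ c₁ * (2 * r) := by positivity
  rw [hm] at a1
  have a2 := (abs_le.mp a1).2
  have a3 : c₁ * ‖v‖ * τ ≤ 1 / 32 * τ := mul_le_mul_of_nonneg_right (by linarith) hτ.le
  linarith

theorem branch3m (P : LPar v f h ε r R M K) (hs : ∀ t ∈ s, u t ∈ Icc (-3 : ℝ) 0) (hc : 0 ≤ c)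
    (hc₁ : c ≤ c₁) (hb₁ : |b| ≤ c₁) (hK : c₁ * K ≤ 2) (hcK : 24 * (K * c) ≤ 1) (hb : b ≤ 0)
    (hm : inner ℝ m f = 1) :
    GrK (1 / 2) s (fun t x => -(lT i₀ K r (u t) x.1 - lA v f x)) t₀ x₀ (lD i₀ c b m) := by
  refine GrK.of_pos fun t ht x τ hτ => ?_
  have hc10 : 0 ≤ c₁ := hc.trans hc₁
  have t1 := (lT_inc (i₀ := i₀) (m := m) P (hs t ht) hc hc₁ hb₁ hK hcK x hτ).2 hb
  have a1 := lA_inc' (i₀ := i₀) (m := m) P hc hc₁ hb₁ x hτ
  have q1 := P.c1 hK hc10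
  have hr := P.rpos
  have q2 : 0 ≤ c₁ * (2 * r) := by positivity
  rw [hm] at a1
  have a2 := (abs_le.mp a1).1
  have a3 : c₁ * ‖v‖ * τ ≤ 1 / 32 * τ := mul_le_mul_of_nonneg_right (by linarith) hτ.le
  linarith

/-- At the crotch the distance of `t` and `j` decreases fast. -/
theorem branch3c (P : LPar v f h ε r R M K) (hs : ∀ t ∈ s, u t ∈ Icc (-3 : ℝ) 0)
    (hc : 0 ≤ c) (hc₁ : c ≤ c₁) (hb₁ : |b| ≤ c₁) (hK : c₁ * K ≤ 2) (hb : K * b = -2)
    (hm : inner ℝ m f = -1)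
    (hT : ∃ U ∈ 𝓝 x₀, ∀ᶠ t in 𝓝[s] t₀, ∀ x ∈ U,
      lT i₀ K r (u t) x.1 = K * (x.1.2 i₀ - u t * x.1.1)) :
    GrK (1 / 2) s (fun t x => -(lT i₀ K r (u t) x.1 - lA v f x)) t₀ x₀ (lD i₀ c b m) := by
  have h1 : GrK (1 / 2) s (fun t x => -(K * (x.1.2 i₀ - u t * x.1.1) - lA v f x)) t₀ x₀
      (lD i₀ c b m) := by
    refine GrK.of_pos fun t ht x τ hτ => ?_
    have hc10 : 0 ≤ c₁ := hc.trans hc₁
    have a1 := lA_inc' (i₀ := i₀) (m := m) P hc hc₁ hb₁ x hτ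
    have q1 := P.c1 hK hc10
    have hr := P.rpos
    have hKp := P.Kpos
    have q2 : 0 ≤ c₁ * (2 * r) := by positivity
    rw [hm] at a1
    have a2 := (abs_le.mp a1).1
    have a3 : c₁ * ‖v‖ * τ ≤ 1 / 32 * τ := mul_le_mul_of_nonneg_right (by linarith) hτ.le
    rw [lD_p, lD_u]
    have e1 : K * (x.1.2 i₀ + τ * b - u t * (x.1.1 - τ * c)) =
      K * (x.1.2 i₀ - u t * x.1.1) + K * b * τ - K * c * τ * -u t := by ring
    rw [e1, hb]
    have w2 : 0 ≤ K * c * τ * -u t := mul_nonneg (by positivity) (by linarith [(hs t ht).2])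
    linarith
  refine h1.congr ?_
  obtain ⟨U, hU, h2⟩ := hT
  exact ⟨U, hU, h2.mono fun t ht x hx => by rw [ht x hx]⟩

end Branch

/-! ### Continuity -/

theorem continuous_lY : Continuous (lY v : (ℝ × (ι → ℝ)) × V → V) := by
  unfold lY
  fun_prop

theorem continuous_lA : Continuous (lA v f : (ℝ × (ι → ℝ)) × V → ℝ) := by
  unfold lA
  exact continuous_lY.inner continuous_const

section Cont

variable {A : Type*} [TopologicalSpace A] {a : Set A} {θ u : A → ℝ} {x : A → (ℝ × (ι → ℝ)) × V}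

theorem ContinuousOn.lT' (hu : ContinuousOn u a) (hx : ContinuousOn x a) :
    ContinuousOn (fun q => lT i₀ K r (u q) (x q).1) a := by
  unfold lT
  have h1 : ContinuousOn (fun q => (x q).1) a := continuous_fst.comp_continuousOn hx
  have h2 : ContinuousOn (fun q => (x q).1.2 i₀) a := by fun_prop
  have h3 : ContinuousOn (fun q => (x q).1.1) a := by fun_prop
  exact continuousOn_const.sup ((continuousOn_const.mul h1.norm).inf
    (continuousOn_const.mul (h2.sub (hu.mul h3))))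

theorem ContinuousOn.lB' (hθ : ContinuousOn θ a) (hx : ContinuousOn x a) :
    ContinuousOn (fun q => lB i₀ v f K r (θ q) (x q)) a := by
  unfold lB
  have h1 : ContinuousOn (fun q => (x q).1) a := continuous_fst.comp_continuousOn hx
  have h2 : ContinuousOn (fun q => (x q).1.2 i₀) a := by fun_prop
  have h3 : ContinuousOn (fun q => lA v f (x q)) a := continuous_lA.comp_continuousOn hx
  exact (continuousOn_const.mul h2).add (((continuousOn_const.sub hθ).mul h3).add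
    (hθ.mul (h3.sub (continuousOn_const.mul h1.norm)).abs))

theorem ContinuousOn.lW' (hθ : ContinuousOn θ a) (hu : ContinuousOn u a)
    (hx : ContinuousOn x a) : ContinuousOn (fun q => lW i₀ v f K r (θ q) (u q) (x q)) a := by
  unfold lW
  have h1 : ContinuousOn (fun q => (x q).1) a := continuous_fst.comp_continuousOn hx
  have h3 : ContinuousOn (fun q => lA v f (x q)) a := continuous_lA.comp_continuousOn hx
  exact ((ContinuousOn.lB' hθ hx).sup (h3.sub (continuousOn_const.mul h1.norm))).sup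
    ((ContinuousOn.lT' hu hx).sub h3)

theorem ContinuousOn.lH' (hθ : ContinuousOn θ a) (hu : ContinuousOn u a)
    (hx : ContinuousOn x a) : ContinuousOn (fun q => lH i₀ v f K r (θ q) (u q) (x q)) a := by
  unfold lH
  have h3 : ContinuousOn (fun q => lA v f (x q)) a := continuous_lA.comp_continuousOn hx
  exact (continuous_lY.comp_continuousOn hx).add
    (((ContinuousOn.lW' hθ hu hx).sub h3).smul continuousOn_const)

end Cont

/-! ### Lipschitz -/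

section Lips

variable {s : Set T} {th u : T → ℝ}

theorem uLip_g : ULip s (fun (_ : T) (x : (ℝ × (ι → ℝ)) × V) => ‖x.1‖) :=
  (ULip.linear (ContinuousLinearMap.fst ℝ (ℝ × (ι → ℝ)) V)).norm

theorem uLip_p (i₀ : ι) : ULip s (fun (_ : T) (x : (ℝ × (ι → ℝ)) × V) => x.1.2 i₀) :=
  ULip.linear ((ContinuousLinearMap.proj i₀ : (ι → ℝ) →L[ℝ] ℝ).comp
    ((ContinuousLinearMap.snd ℝ ℝ (ι → ℝ)).comp (ContinuousLinearMap.fst ℝ (ℝ × (ι → ℝ)) V)))

theorem uLip_u : ULip s (fun (_ : T) (x : (ℝ × (ι → ℝ)) × V) => x.1.1) :=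
  ULip.linear ((ContinuousLinearMap.fst ℝ ℝ (ι → ℝ)).comp
    (ContinuousLinearMap.fst ℝ (ℝ × (ι → ℝ)) V))

theorem uLip_lY : ULip s (fun (_ : T) (x : (ℝ × (ι → ℝ)) × V) => lY v x) :=
  (ULip.linear (ContinuousLinearMap.snd ℝ (ℝ × (ι → ℝ)) V)).sub (uLip_g.smul_vec v)

theorem uLip_lA : ULip s (fun (_ : T) (x : (ℝ × (ι → ℝ)) × V) => lA v f x) :=
  uLip_lY.inner_vec f

theorem uLip_lT (hu : ∀ t ∈ s, u t ∈ Icc (-3 : ℝ) 0) :
    ULip s (fun t (x : (ℝ × (ι → ℝ)) × V) => lT i₀ K r (u t) x.1) :=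
  (ULip.const fun _ => (0 : ℝ)).max ((uLip_g.const_mul r).min
    (((uLip_p i₀).sub (uLip_u.mul_left (c := u) (C := 3) fun t ht => by
      rw [abs_le]; exact ⟨(hu t ht).1, by linarith [(hu t ht).2]⟩)).const_mul K))

theorem uLip_lB (hth : ∀ t ∈ s, th t ∈ Icc (0 : ℝ) 1) :
    ULip s (fun t (x : (ℝ × (ι → ℝ)) × V) => lB i₀ v f K r (th t) x) := by
  refine ((uLip_p i₀).const_mul K).add ((uLip_lA.mul_left (c := fun t => 1 - th t) (C := 1)
    fun t ht => ?_).add ((uLip_lA.sub (uLip_g.const_mul _)).abs.mul_left (c := th) (C := 1)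
      fun t ht => ?_))
  · rw [abs_le]; exact ⟨by linarith [(hth t ht).2], by linarith [(hth t ht).1]⟩
  · rw [abs_le]; exact ⟨by linarith [(hth t ht).1], (hth t ht).2⟩

theorem uLip_lW (hth : ∀ t ∈ s, th t ∈ Icc (0 : ℝ) 1) (hu : ∀ t ∈ s, u t ∈ Icc (-3 : ℝ) 0) :
    ULip s (fun t (x : (ℝ × (ι → ℝ)) × V) => lW i₀ v f K r (th t) (u t) x) :=
  ((uLip_lB hth).max (uLip_lA.sub (uLip_g.const_mul _))).max ((uLip_lT hu).sub uLip_lA)

theorem uLip_lH (hth : ∀ t ∈ s, th t ∈ Icc (0 : ℝ) 1) (hu : ∀ t ∈ s, u t ∈ Icc (-3 : ℝ) 0) :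
    ULip s (fun t (x : (ℝ × (ι → ℝ)) × V) => lH i₀ v f K r (th t) (u t) x) :=
  uLip_lY.add (((uLip_lW hth hu).sub uLip_lA).smul_vec f)

theorem ULip.inc {E F : Type*} [NormedAddCommGroup E] [NormedSpace ℝ E] [NormedAddCommGroup F]
    {s : Set T} {f : T → E → F} (hf : ULip s f) (a : E) :
    ∃ L : ℝ, 0 ≤ L ∧ ∀ t ∈ s, ∀ x, ∀ τ : ℝ, 0 < τ → ‖f t (x + τ • a) - f t x‖ ≤ L * τ := by
  obtain ⟨L, h0, h⟩ := hf
  refine ⟨L * ‖a‖, by positivity, fun t ht x τ hτ => ?_⟩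
  refine (h t ht _ _).trans ?_
  rw [add_sub_cancel_left, norm_smul, Real.norm_eq_abs, abs_of_pos hτ]
  exact le_of_eq (by ring)

end Lips

/-! ### The slab front -/

theorem norm_add_single {p : ι → ℝ} (b : ℝ) (h : |p i₀| < ‖p‖ ∨ p i₀ * b ≥ 0) :
    ‖p‖ ≤ ‖p + b • Pi.single i₀ (1 : ℝ)‖ := by
  rcases isEmpty_or_nonempty ι with he | he
  · exact (congrArg norm (Subsingleton.elim p (p + b • (Pi.single i₀ (1 : ℝ) : ι → ℝ)))).le
  obtain ⟨j, hj⟩ : ∃ j, ‖p‖ = |p j| := by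
    obtain ⟨j, -, hj⟩ := Finset.exists_max_image Finset.univ (fun j => |p j|)
      Finset.univ_nonempty
    refine ⟨j, le_antisymm ?_ (norm_le_pi_norm p j)⟩
    exact (pi_norm_le_iff_of_nonneg (abs_nonneg _)).mpr fun i => hj i (Finset.mem_univ _)
  by_cases hji : j = i₀
  · subst hji
    rcases h with h | h
    · exact absurd hj (ne_of_gt h)
    · rw [hj]
      refine le_trans ?_ (norm_le_pi_norm _ j)
      rw [Real.norm_eq_abs, Pi.add_apply, Pi.smul_apply, Pi.single_eq_same, smul_eq_mul, mul_one]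
      refine sq_le_sq.mp ?_
      nlinarith [sq_nonneg b]
  · rw [hj]
    have : |p j| = ‖(p + b • (Pi.single i₀ (1 : ℝ) : ι → ℝ)) j‖ := by
      rw [Pi.add_apply, Pi.smul_apply, Pi.single_eq_of_ne hji, smul_zero, add_zero,
        Real.norm_eq_abs]
    rw [this]
    exact norm_le_pi_norm _ j

/-! ### The hairpin coordinate -/

section Main

variable {s : Set T} {th u : T → ℝ} {t₀ : T} {x₀ : (ℝ × (ι → ℝ)) × V}

theorem ctAt_lB (cth : ContinuousOn th s) (ht₀ : t₀ ∈ s) :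
    CtAt s (fun t x => lB i₀ v f K r (th t) x) t₀ x₀ :=
  ContinuousOn.lB' (a := s ×ˢ univ) (θ := fun q : T × ((ℝ × (ι → ℝ)) × V) => th q.1)
    (x := fun q => q.2) (cth.comp continuousOn_fst fun _ hq => hq.1) continuousOn_snd (t₀, x₀)
    ⟨ht₀, mem_univ _⟩

theorem ctAt_lT (cu : ContinuousOn u s) (ht₀ : t₀ ∈ s) :
    CtAt s (fun t (x : (ℝ × (ι → ℝ)) × V) => lT i₀ K r (u t) x.1) t₀ x₀ :=
  ContinuousOn.lT' (a := s ×ˢ univ) (u := fun q : T × ((ℝ × (ι → ℝ)) × V) => u q.1)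
    (x := fun q => q.2) (cu.comp continuousOn_fst fun _ hq => hq.1) continuousOn_snd (t₀, x₀)
    ⟨ht₀, mem_univ _⟩

theorem ctAt_lA : CtAt s (fun _ x => lA v f x) t₀ x₀ :=
  (continuous_lA.comp continuous_snd).continuousWithinAt

theorem ctAt_g : CtAt s (fun _ (x : (ℝ × (ι → ℝ)) × V) => ‖x.1‖) t₀ x₀ := by
  have : Continuous (fun p : T × ((ℝ × (ι → ℝ)) × V) => ‖p.2.1‖) := by fun_prop
  exact this.continuousWithinAt

theorem ctAt_B2 : CtAt s (fun _ x => lA v f x - 2 * r * ‖x.1‖) t₀ x₀ :=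
  ContinuousWithinAt.sub ctAt_lA (continuousWithinAt_const.mul ctAt_g)

theorem ctAt_B3 (cu : ContinuousOn u s) (ht₀ : t₀ ∈ s) :
    CtAt s (fun t x => lT i₀ K r (u t) x.1 - lA v f x) t₀ x₀ :=
  ContinuousWithinAt.sub (ctAt_lT cu ht₀) ctAt_lA

theorem lW_grows (cth : ContinuousOn th s) (cu : ContinuousOn u s) (ht₀ : t₀ ∈ s) {σ κ : ℝ}
    (hσ : σ = 1 ∨ σ = -1) {a : (ℝ × (ι → ℝ)) × V}
    (h1 : lB i₀ v f K r (th t₀) x₀ = lW i₀ v f K r (th t₀) (u t₀) x₀ →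
      GrK κ s (fun t x => σ * lB i₀ v f K r (th t) x) t₀ x₀ a)
    (h2 : lA v f x₀ - 2 * r * ‖x₀.1‖ = lW i₀ v f K r (th t₀) (u t₀) x₀ →
      GrK κ s (fun _ x => σ * (lA v f x - 2 * r * ‖x.1‖)) t₀ x₀ a)
    (h3 : lT i₀ K r (u t₀) x₀.1 - lA v f x₀ = lW i₀ v f K r (th t₀) (u t₀) x₀ →
      GrK κ s (fun t x => σ * (lT i₀ K r (u t) x.1 - lA v f x)) t₀ x₀ a) :
    GrK κ s (fun t x => σ * lW i₀ v f K r (th t) (u t) x) t₀ x₀ a := by
  have c1 := ctAt_lB (i₀ := i₀) (v := v) (f := f) (K := K) (r := r) (x₀ := x₀) cth ht₀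
  have c2 := ctAt_B2 (v := v) (f := f) (r := r) (s := s) (t₀ := t₀) (x₀ := x₀)
  have c3 := ctAt_B3 (i₀ := i₀) (v := v) (f := f) (K := K) (r := r) (x₀ := x₀) cu ht₀
  have e : lW i₀ v f K r (th t₀) (u t₀) x₀ = max (max (lB i₀ v f K r (th t₀) x₀)
    (lA v f x₀ - 2 * r * ‖x₀.1‖)) (lT i₀ K r (u t₀) x₀.1 - lA v f x₀) := rfl
  rcases hσ with rfl | rfl
  · simp only [one_mul] at h1 h2 h3 ⊢
    refine GrK.max' (c1.max c2) c3 (fun hle => ?_) (fun hle => ?_)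
    · refine GrK.max' c1 c2 (fun h => h1 ?_) (fun h => h2 ?_)
      · rw [e, max_eq_left hle, max_eq_left h]
      · rw [e, max_eq_left hle, max_eq_right h]
    · exact h3 (by rw [e, max_eq_right hle])
  · simp only [neg_mul, one_mul] at h1 h2 h3 ⊢
    have e2 : (fun (t : T) (x : (ℝ × (ι → ℝ)) × V) => -lW i₀ v f K r (th t) (u t) x) =
        fun t x => min (min (-lB i₀ v f K r (th t) x) (-(lA v f x - 2 * r * ‖x.1‖)))
          (-(lT i₀ K r (u t) x.1 - lA v f x)) := by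
      funext t x
      rw [min_neg_neg, min_neg_neg]
      rfl
    rw [e2]
    refine GrK.min' (c1.neg.min c2.neg) c3.neg (fun hle => ?_) (fun hle => ?_)
    · rw [min_neg_neg, neg_le_neg_iff] at hle
      refine GrK.min' c1.neg c2.neg (fun h => h1 ?_) (fun h => h2 ?_)
      · rw [e, max_eq_left hle, max_eq_left (neg_le_neg_iff.mp h)]
      · rw [e, max_eq_left hle, max_eq_right (neg_le_neg_iff.mp h)]
    · rw [min_neg_neg, neg_le_neg_iff] at hle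
      exact h3 (by rw [e, max_eq_right hle])

theorem LPar.c1v (P : LPar v f h ε r R M K) : 2 / K * K ≤ 2 := by
  have := P.Kpos
  rw [div_mul_cancel₀ _ this.ne']

/-- Data of a point on the axis, on the rim of the hairpin plate. -/
structure LPt (i₀ : ι) (v f : V) (ε r K θ υ : ℝ) (x₀ : (ℝ × (ι → ℝ)) × V) (G A W σ : ℝ) : Prop where
  hG : 0 < G
  hGx : ‖x₀.1‖ = G
  hA : lA v f x₀ = A
  hW : lW i₀ v f K r θ υ x₀ = W
  hσ : σ = 1 ∨ σ = -1
  hWσ : W = -(σ * (ε * G))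

section pt

variable {θ υ G A W σ : ℝ}

theorem LPt.eB (X : LPt i₀ v f ε r K θ υ x₀ G A W σ) :
    lB i₀ v f K r θ x₀ = K * x₀.1.2 i₀ + ((1 - θ) * A + θ * |A - 3 / 2 * r * G|) := by
  rw [← X.hA, ← X.hGx]; rfl

theorem LPt.T0 : 0 ≤ lT i₀ K r υ x₀.1 := le_max_left _ _

theorem LPt.leB (X : LPt i₀ v f ε r K θ υ x₀ G A W σ) : lB i₀ v f K r θ x₀ ≤ W := by
  rw [← X.hW]; exact (le_max_left _ _).trans (le_max_left _ _)

theorem LPt.leB2 (X : LPt i₀ v f ε r K θ υ x₀ G A W σ) : A - 2 * r * G ≤ W := by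
  rw [← X.hW, ← X.hA, ← X.hGx]; exact (le_max_right _ _).trans (le_max_left _ _)

theorem LPt.leB3 (X : LPt i₀ v f ε r K θ υ x₀ G A W σ) : lT i₀ K r υ x₀.1 - A ≤ W := by
  rw [← X.hW, ← X.hA]; exact le_max_right _ _

theorem LPt.absW (X : LPt i₀ v f ε r K θ υ x₀ G A W σ) (hε : 0 < ε) :
    -(ε * G) ≤ W ∧ W ≤ ε * G := by
  have := X.hG
  have h1 : 0 < ε * G := by positivity
  rw [X.hWσ]
  rcases X.hσ with h | h <;> rw [h] <;> constructor <;> linarith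

/-- If the first branch is active then `p i₀` is small. -/
theorem LPt.small (X : LPt i₀ v f ε r K θ υ x₀ G A W σ) (P : LPar v f h ε r R M K)
    (hθ : θ ∈ Icc (0 : ℝ) 1) (h1 : lB i₀ v f K r θ x₀ = W) : |x₀.1.2 i₀| < G := by
  have hK := P.Kpos
  have hr := P.rpos
  have hG := X.hG
  have hεG : 0 < ε * G := mul_pos P.hε hG
  have hrG : 16 * (ε * G) ≤ r * G := by
    have := mul_le_mul_of_nonneg_right P.hr hG.le
    linarith
  obtain ⟨hW1, hW2⟩ := X.absW P.hε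
  have hB2 := X.leB2
  have hB3 := X.leB3
  have hT0 : 0 ≤ lT i₀ K r υ x₀.1 := LPt.T0
  obtain ⟨hθ0, hθ1⟩ := hθ
  have e1 : K * x₀.1.2 i₀ = W - ((1 - θ) * A + θ * |A - 3 / 2 * r * G|) := by
    rw [← h1, X.eB]; ring
  have hA1 : |A| ≤ 2 * (r * G) + ε * G := abs_le.mpr ⟨by linarith, by linarith⟩
  have hA2 : |A - 3 / 2 * r * G| ≤ 2 * (r * G) + ε * G := by
    rw [abs_le]
    constructor <;> linarith
  have e2 : abs ((1 - θ) * A + θ * abs (A - 3 / 2 * r * G)) ≤ 2 * (r * G) + ε * G := by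
    refine (abs_add_le _ _).trans ?_
    rw [abs_mul, abs_mul, abs_abs, abs_of_nonneg hθ0, abs_of_nonneg (by linarith : 0 ≤ 1 - θ)]
    have i1 := mul_le_mul_of_nonneg_left hA1 (by linarith : 0 ≤ 1 - θ)
    have i2 := mul_le_mul_of_nonneg_left hA2 hθ0
    linarith
  have e3 : K * |x₀.1.2 i₀| ≤ 3 * (r * G) := by
    have e5 : K * |x₀.1.2 i₀| = |K * x₀.1.2 i₀| := by rw [abs_mul, abs_of_pos hK]
    rw [e5, e1]
    refine (abs_sub _ _).trans ?_
    have : |W| ≤ ε * G := abs_le.mpr ⟨hW1, hW2⟩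
    linarith
  have e4 : 64 * (2 * r) ≤ K := by
    have := P.hK
    have := norm_nonneg v
    linarith
  by_contra hcon
  push Not at hcon
  have h5 : K * G ≤ 3 * (r * G) := (mul_le_mul_of_nonneg_left hcon hK.le).trans e3
  have h6 : 64 * (2 * r) * G ≤ K * G := mul_le_mul_of_nonneg_right e4 hG.le
  have h7 : 0 < r * G := by positivity
  linarith

end pt

/-- The possible directions at a point on the axis. -/
def LChoice (i₀ : ι) (v f : V) (ε r K : ℝ) (s : Set T) (th u : T → ℝ) (t₀ : T)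
    (x₀ : (ℝ × (ι → ℝ)) × V) (G A σ : ℝ) : Prop :=
  ∃ δ b : ℝ, (δ = 1 ∨ δ = -1) ∧ |b| ≤ 2 / K ∧
    GrK (1 / 2) s (fun t x => σ * lW i₀ v f K r (th t) (u t) x) t₀ x₀
      (lD i₀ (1 / (24 * K)) b (δ • f)) ∧ (|A| = ε * G → A = -(δ * (ε * G))) ∧
    (b = 0 ∨ |x₀.1.2 i₀| < G ∨ 0 < x₀.1.2 i₀ * b)

section choice

variable {G A W σ : ℝ}

theorem LPar.c0 (P : LPar v f h ε r R M K) : 0 ≤ 1 / (24 * K) ∧ 1 / (24 * K) ≤ 2 / K ∧
    24 * (K * (1 / (24 * K))) ≤ 1 := by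
  have hK := P.Kpos
  refine ⟨by positivity, ?_, ?_⟩
  · rw [div_le_div_iff₀ (by positivity) hK]
    linarith
  · have : 24 * (K * (1 / (24 * K))) = 1 := by field_simp
    rw [this]

theorem LPar.if (P : LPar v f h ε r R M K) (δ : ℝ) : inner ℝ (δ • f) f = δ := by
  rw [real_inner_smul_left, real_inner_self_eq_norm_sq, P.hf]; ring

theorem LPar.kb (P : LPar v f h ε r R M K) (σ : ℝ) : K * (2 * σ / K) = 2 * σ := by
  have hK := P.Kpos
  field_simp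

theorem LPar.bσ (P : LPar v f h ε r R M K) {σ : ℝ} (hσ : σ = 1 ∨ σ = -1) :
    |2 * σ / K| ≤ 2 / K := by
  have hK := P.Kpos
  have hσa : |σ| = 1 := by rcases hσ with rfl | rfl <;> norm_num
  rw [abs_div, abs_mul, hσa, abs_of_pos hK]
  norm_num

/-- The standard choice `δ = -σ`, when the second branch is not active. -/
theorem choice_std (X : LPt i₀ v f ε r K (th t₀) (u t₀) x₀ G A W σ) (P : LPar v f h ε r R M K)
    (hth : ∀ t ∈ s, th t ∈ Icc (0 : ℝ) 1) (hu : ∀ t ∈ s, u t ∈ Icc (-3 : ℝ) 0)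
    (cth : ContinuousOn th s) (cu : ContinuousOn u s) (ht₀ : t₀ ∈ s)
    (hA3 : A < 3 / 2 * r * G) (hAj : |A| = ε * G → A = -(-σ * (ε * G))) :
    LChoice i₀ v f ε r K s th u t₀ x₀ G A σ := by
  have hK := P.Kpos
  obtain ⟨hc, hc₁, hcK⟩ := P.c0
  have hG := X.hG
  have hεG : 0 < ε * G := mul_pos P.hε hG
  have hrG : 16 * (ε * G) ≤ r * G := by
    have := mul_le_mul_of_nonneg_right P.hr hG.le
    linarith
  obtain ⟨hW1, hW2⟩ := X.absW P.hε
  have hσa : |σ| = 1 := by rcases X.hσ with h | h <;> rw [h] <;> norm_num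
  classical
  obtain ⟨b, hb, hb0⟩ : ∃ b : ℝ, (lB i₀ v f K r (th t₀) x₀ = W → b = 2 * σ / K) ∧
      (lB i₀ v f K r (th t₀) x₀ ≠ W → b = 0) := by
    by_cases h1 : lB i₀ v f K r (th t₀) x₀ = W
    · exact ⟨2 * σ / K, fun _ => rfl, fun h => absurd h1 h⟩
    · exact ⟨0, fun h => absurd h h1, fun _ => rfl⟩
  have hb1 : |b| ≤ 2 / K := by
    by_cases h1 : lB i₀ v f K r (th t₀) x₀ = W
    · rw [hb h1]; exact P.bσ X.hσ
    · rw [hb0 h1, abs_zero]; positivity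
  refine ⟨-σ, b, ?_, hb1, ?_, hAj, ?_⟩
  · rcases X.hσ with h | h
    · right; rw [h]
    · left; rw [h]; norm_num
  · refine lW_grows cth cu ht₀ X.hσ (fun h1 => ?_) (fun h2 => ?_) (fun h3 => ?_)
    · rw [X.hW] at h1
      have hb2 : b = 2 * σ / K := hb h1
      refine branch1 P hth hc hc₁ hb1 P.c1v hσa (by rw [hb2]; exact P.kb σ) ?_
      rw [P.if, abs_neg, hσa]
    · exfalso
      rw [X.hW, X.hA, X.hGx] at h2
      linarith
    · rcases X.hσ with h | h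
      · rw [h]
        simp only [one_mul]
        refine branch3p P hu hc hc₁ hb1 P.c1v hcK ?_ (P.if _)
        by_cases h1 : lB i₀ v f K r (th t₀) x₀ = W
        · rw [hb h1, h]; positivity
        · exact (hb0 h1).ge
      · rw [h]
        simp only [neg_mul, one_mul]
        refine branch3m P hu hc hc₁ hb1 P.c1v hcK ?_ (by rw [P.if]; norm_num)
        by_cases h1 : lB i₀ v f K r (th t₀) x₀ = W
        · rw [hb h1, h]
          exact div_nonpos_of_nonpos_of_nonneg (by norm_num) hK.le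
        · exact (hb0 h1).le
  · by_cases h1 : lB i₀ v f K r (th t₀) x₀ = W
    · exact Or.inr (Or.inl (X.small P (hth t₀ ht₀) h1))
    · left; exact hb0 h1

/-- The choice in the layer of `k`. -/
theorem choice_k (X : LPt i₀ v f ε r K (th t₀) (u t₀) x₀ G A W σ) (P : LPar v f h ε r R M K)
    (hth : ∀ t ∈ s, th t ∈ Icc (0 : ℝ) 1)
    (cth : ContinuousOn th s) (cu : ContinuousOn u s) (ht₀ : t₀ ∈ s)
    (hA3 : 3 / 2 * r * G ≤ A) : LChoice i₀ v f ε r K s th u t₀ x₀ G A σ := by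
  have hK := P.Kpos
  obtain ⟨hc, hc₁, hcK⟩ := P.c0
  have hG := X.hG
  have hεG : 0 < ε * G := mul_pos P.hε hG
  have hrG : 16 * (ε * G) ≤ r * G := by
    have := mul_le_mul_of_nonneg_right P.hr hG.le
    linarith
  obtain ⟨hW1, hW2⟩ := X.absW P.hε
  have hσa : |σ| = 1 := by rcases X.hσ with h | h <;> rw [h] <;> norm_num
  have hTr : lT i₀ K r (u t₀) x₀.1 ≤ r * G := by
    rw [← X.hGx]
    exact max_le (mul_nonneg P.rpos.le (norm_nonneg _)) (min_le_left _ _)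
  classical
  obtain ⟨b, hb, hb0⟩ : ∃ b : ℝ, (lB i₀ v f K r (th t₀) x₀ = W → b = 2 * σ / K) ∧
      (lB i₀ v f K r (th t₀) x₀ ≠ W → b = 0) := by
    by_cases h1 : lB i₀ v f K r (th t₀) x₀ = W
    · exact ⟨2 * σ / K, fun _ => rfl, fun h => absurd h1 h⟩
    · exact ⟨0, fun h => absurd h h1, fun _ => rfl⟩
  have hb1 : |b| ≤ 2 / K := by
    by_cases h1 : lB i₀ v f K r (th t₀) x₀ = W
    · rw [hb h1]; exact P.bσ X.hσ
    · rw [hb0 h1, abs_zero]; positivity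
  refine ⟨σ, b, X.hσ, hb1, ?_, fun h => ?_, ?_⟩
  · refine lW_grows cth cu ht₀ X.hσ (fun h1 => ?_) (fun h2 => ?_) (fun h3 => ?_)
    · rw [X.hW] at h1
      have hb2 : b = 2 * σ / K := hb h1
      refine branch1 P hth hc hc₁ hb1 P.c1v hσa (by rw [hb2]; exact P.kb σ) ?_
      rw [P.if, hσa]
    · refine branch2 P hc hc₁ hb1 P.c1v hσa ?_
      rw [P.if]
      rcases X.hσ with h | h <;> rw [h] <;> norm_num
    · exfalso
      rw [X.hW, X.hA] at h3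
      linarith
  · exfalso
    have := le_abs_self A
    linarith
  · by_cases h1 : lB i₀ v f K r (th t₀) x₀ = W
    · exact Or.inr (Or.inl (X.small P (hth t₀ ht₀) h1))
    · left; exact hb0 h1

/-- Inside its range the distance of `t` and `j` is the linear function. -/
theorem lT_slope (cu : ContinuousOn u s) (ht₀ : t₀ ∈ s)
    (h1 : 0 < lT i₀ K r (u t₀) x₀.1) (h2 : lT i₀ K r (u t₀) x₀.1 < r * ‖x₀.1‖) :
    ∃ U ∈ 𝓝 x₀, ∀ᶠ t in 𝓝[s] t₀, ∀ x ∈ U,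
      lT i₀ K r (u t) x.1 = K * (x.1.2 i₀ - u t * x.1.1) := by
  have cq : CtAt s (fun t (x : (ℝ × (ι → ℝ)) × V) =>
      K * (x.1.2 i₀ - u t * x.1.1)) t₀ x₀ := by
    have h2 : ContinuousWithinAt (fun q : T × ((ℝ × (ι → ℝ)) × V) => u q.1) (s ×ˢ univ)
        (t₀, x₀) := (cu t₀ ht₀).comp continuousWithinAt_fst fun q hq => hq.1
    have h3 : Continuous (fun q : T × ((ℝ × (ι → ℝ)) × V) => q.2.1.2 i₀) := by fun_prop
    have h4 : Continuous (fun q : T × ((ℝ × (ι → ℝ)) × V) => q.2.1.1) := by fun_prop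
    exact continuousWithinAt_const.mul (h3.continuousWithinAt.sub
      (h2.mul h4.continuousWithinAt))
  have cg : CtAt s (fun _ (x : (ℝ × (ι → ℝ)) × V) => r * ‖x.1‖) t₀ x₀ :=
    continuousWithinAt_const.mul ctAt_g
  have c0 : CtAt s (fun _ (x : (ℝ × (ι → ℝ)) × V) => (0 : ℝ)) t₀ x₀ :=
    continuousWithinAt_const
  have hq1 : K * (x₀.1.2 i₀ - u t₀ * x₀.1.1) = lT i₀ K r (u t₀) x₀.1 := by
    unfold lT at h1 h2 ⊢
    rcases le_total (r * ‖x₀.1‖) (K * (x₀.1.2 i₀ - u t₀ * x₀.1.1)) with h5 | h5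
    · rw [min_eq_left h5] at h2
      exact absurd (le_max_right 0 (r * ‖x₀.1‖)) (not_le.mpr h2)
    · rw [min_eq_right h5] at h1 ⊢
      rcases le_total 0 (K * (x₀.1.2 i₀ - u t₀ * x₀.1.1)) with h6 | h6
      · rw [max_eq_right h6]
      · rw [max_eq_left h6] at h1
        exact absurd h1 (lt_irrefl _)
  obtain ⟨U1, hU1, ev1⟩ := c0.ev_lt cq (by rw [hq1]; exact h1)
  obtain ⟨U2, hU2, ev2⟩ := cq.ev_lt cg (by rw [hq1]; exact h2)
  refine ⟨U1 ∩ U2, inter_mem hU1 hU2, ?_⟩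
  filter_upwards [ev1, ev2] with t e1 e2 x hx
  unfold lT
  rw [min_eq_right (e2 x hx.2).le, max_eq_right (e1 x hx.1).le]

/-- The choice at the crotch. -/
theorem choice_c (X : LPt i₀ v f ε r K (th t₀) (u t₀) x₀ G A W (-1)) (P : LPar v f h ε r R M K)
    (hth : ∀ t ∈ s, th t ∈ Icc (0 : ℝ) 1) (hu : ∀ t ∈ s, u t ∈ Icc (-3 : ℝ) 0)
    (cth : ContinuousOn th s) (cu : ContinuousOn u s) (ht₀ : t₀ ∈ s)
    (hAe : A = ε * G) : LChoice i₀ v f ε r K s th u t₀ x₀ G A (-1) := by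
  have hK := P.Kpos
  obtain ⟨hc, hc₁, hcK⟩ := P.c0
  have hG := X.hG
  have hεG : 0 < ε * G := mul_pos P.hε hG
  have hrG : 16 * (ε * G) ≤ r * G := by
    have := mul_le_mul_of_nonneg_right P.hr hG.le
    linarith
  have hWe : W = ε * G := by rw [X.hWσ]; ring
  have hbσ := P.bσ X.hσ
  obtain ⟨hθ0, hθ1⟩ := hth t₀ ht₀
  refine ⟨-1, 2 * (-1) / K, Or.inr rfl, hbσ, ?_, fun _ => by rw [hAe]; ring, ?_⟩
  · refine lW_grows cth cu ht₀ X.hσ (fun h1 => ?_) (fun h2 => ?_) (fun h3 => ?_)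
    · refine branch1 P hth hc hc₁ hbσ P.c1v (by norm_num) (P.kb _) ?_
      rw [P.if]; norm_num
    · exfalso
      rw [X.hW, X.hA, X.hGx] at h2
      linarith
    · simp only [neg_mul, one_mul]
      rw [X.hW, X.hA] at h3
      refine branch3c P hu hc hc₁ hbσ P.c1v (by rw [P.kb]; norm_num) (P.if _) ?_
      refine lT_slope cu ht₀ (by linarith) ?_
      rw [X.hGx]
      linarith
  · have h5 : K * x₀.1.2 i₀ ≤ 0 := by
      have hB := X.leB
      rw [X.eB] at hB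
      have h6 : |A - 3 / 2 * r * G| = 3 / 2 * r * G - A := by
        rw [abs_of_neg (by linarith)]; ring
      rw [h6] at hB
      have h7 : th t₀ * A ≤ th t₀ * (3 / 2 * r * G - A) :=
        mul_le_mul_of_nonneg_left (by linarith) hθ0
      linarith
    have h6 : x₀.1.2 i₀ ≤ 0 := by
      by_contra hcon
      have := mul_pos hK (not_le.mp hcon)
      linarith
    rcases h6.eq_or_lt with h7 | h7
    · exact Or.inr (Or.inl (by rw [h7, abs_zero]; exact hG))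
    · exact Or.inr (Or.inr (mul_pos_of_neg_of_neg h7 (div_neg_of_neg_of_pos (by norm_num) hK)))

/-- There is always a direction. -/
theorem choice (X : LPt i₀ v f ε r K (th t₀) (u t₀) x₀ G A W σ) (P : LPar v f h ε r R M K)
    (hth : ∀ t ∈ s, th t ∈ Icc (0 : ℝ) 1) (hu : ∀ t ∈ s, u t ∈ Icc (-3 : ℝ) 0)
    (cth : ContinuousOn th s) (cu : ContinuousOn u s) (ht₀ : t₀ ∈ s) (hj : ε * G ≤ |A|) :
    LChoice i₀ v f ε r K s th u t₀ x₀ G A σ := by
  have hG := X.hG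
  have hεG : 0 < ε * G := mul_pos P.hε hG
  have hrG : 16 * (ε * G) ≤ r * G := by
    have := mul_le_mul_of_nonneg_right P.hr hG.le
    linarith
  have hB3 := X.leB3
  have hT0 : 0 ≤ lT i₀ K r (u t₀) x₀.1 := LPt.T0
  rcases hj.eq_or_lt with hjA | hjA
  · have hA3 : A < 3 / 2 * r * G := by
      have := le_abs_self A
      linarith
    rcases X.hσ with h | h
    · refine choice_std X P hth hu cth cu ht₀ hA3 fun _ => ?_
      have hWe := X.hWσ
      rw [h] at hWe ⊢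
      rcases le_or_gt A 0 with h5 | h5
      · exfalso
        rw [abs_of_nonpos h5] at hjA
        linarith
      · rw [abs_of_pos h5] at hjA
        rw [← hjA]; ring
    · rcases le_or_gt A 0 with h5 | h5
      · refine choice_std X P hth hu cth cu ht₀ hA3 fun _ => ?_
        rw [abs_of_nonpos h5] at hjA
        rw [h]
        linarith
      · rw [abs_of_pos h5] at hjA
        subst h
        exact choice_c X P hth hu cth cu ht₀ hjA.symm
  · rcases lt_or_ge A (3 / 2 * r * G) with hA3 | hA3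
    · exact choice_std X P hth hu cth cu ht₀ hA3 fun h => absurd h hjA.ne'
    · exact choice_k X P hth cth cu ht₀ hA3

end choice

end Main

end Left

end Vale.Agent.P268.T
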