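import Vale.Agent.P268.T.H654.Dir
import Vale.Agent.P268.T.H782.LBase
import Vale.Agent.P268.T.H278.LZero

/-!
# P268, topological half, block B6b: the left family is of class `R`
-/

set_option linter.unusedSectionVars false

namespace Vale.Agent.P268.T.H654

open Set Filter Topology Metric
open Vale.Agent.P268.T.H240 (LData LAdm lplates ldom lfdom LF)
open Vale.Agent.P268.T.H782 (near_fold near_t near_k near_oth be_fold be_t far_vj lplates_base)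

/-! ### The hairpin coordinate far left -/

section Real

variable {r K θ u g w z l T : ℝ}

/-- Far left the first branch is not active. -/
theorem branch_le (hθ : θ ∈ Icc (0 : ℝ) 1) (hT : 0 ≤ T) (hr : 0 ≤ r * g) (hw : w ≤ -(2 * (r * g))) :
    w + ((1 - θ) * l + θ * |l - 3 / 2 * r * g|) ≤ max (l - 2 * r * g) (T - l) := by
  have h1 := le_max_left (l - 2 * r * g) (T - l)
  have h2 := le_max_right (l - 2 * r * g) (T - l)
  set m := max (l - 2 * r * g) (T - l)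
  have h3 : l ≤ m + 2 * (r * g) := by linarith
  have h4 : |l - 3 / 2 * r * g| ≤ m + 2 * (r * g) := by
    rw [abs_le]; constructor <;> linarith
  have h5 := mul_le_mul_of_nonneg_left h3 (sub_nonneg.mpr hθ.2)
  have h6 := mul_le_mul_of_nonneg_left h4 hθ.1
  linarith

theorem lW_left {W B : ℝ} (hW : W = max (max B (l - 2 * r * g)) (T - l))
    (hB : B ≤ max (l - 2 * r * g) (T - l)) : W = max (l - 2 * r * g) (T - l) := by
  rw [hW, max_assoc]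
  exact max_eq_right hB

theorem abs_left_k {W : ℝ} (hW : W = max (l - 2 * r * g) (T - l)) (hT : 0 ≤ T)
    (hTr : T ≤ r * g) : |W| ≤ |l - 2 * r * g| := by
  rcases le_total (T - l) (l - 2 * r * g) with h | h
  · rw [hW, max_eq_left h]
  · rw [hW, max_eq_right h, abs_of_nonpos (by linarith : l - 2 * r * g ≤ 0), abs_le]
    constructor <;> linarith

theorem abs_left_t {W : ℝ} (hW : W = max (l - 2 * r * g) (T - l))
    (hTr : T ≤ r * g) (hr : 0 ≤ r * g) : |W| ≤ |l - T| := by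
  rcases le_total (T - l) (l - 2 * r * g) with h | h
  · rw [hW, max_eq_left h, abs_of_nonneg (by linarith : 0 ≤ l - T), abs_le]
    constructor <;> linarith
  · rw [hW, max_eq_right h, abs_sub_comm]

end Real

variable {T V κ ι : Type*} [TopologicalSpace T] [NormedAddCommGroup V] [InnerProductSpace ℝ V]
  [Fintype ι] [DecidableEq ι] {i₀ : ι}

section Vec

variable {v f : V} {K r θ u : ℝ}

theorem norm_lH_sq (hf : ‖f‖ = 1) (x : (ℝ × (ι → ℝ)) × V) (c : ℝ) :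
    ‖lY v x - c • f‖ ^ 2 = ‖lY v x - lA v f x • f‖ ^ 2 + (lA v f x - c) ^ 2 := by
  have e1 : lY v x - c • f = (lY v x - lA v f x • f) + (lA v f x - c) • f := by
    rw [sub_smul]; abel
  have e2 : inner ℝ (lY v x - lA v f x • f) ((lA v f x - c) • f) = 0 := by
    rw [real_inner_smul_right, inner_sub_left, real_inner_smul_left,
      real_inner_self_eq_norm_sq, hf]
    show _ * (lA v f x - lA v f x * 1 ^ 2) = 0
    ring
  rw [e1, norm_add_sq_real, e2, norm_smul, hf, mul_one, Real.norm_eq_abs, sq_abs]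
  ring

theorem lH_sq (hf : ‖f‖ = 1) (x : (ℝ × (ι → ℝ)) × V) :
    ‖lH i₀ v f K r θ u x‖ ^ 2 =
      ‖lY v x - lA v f x • f‖ ^ 2 + lW i₀ v f K r θ u x ^ 2 := by
  have e1 : lH i₀ v f K r θ u x = lY v x - (lA v f x - lW i₀ v f K r θ u x) • f := by
    unfold lH
    rw [sub_smul, sub_smul]; abel
  rw [e1, norm_lH_sq hf]
  ring

theorem lH_le (hf : ‖f‖ = 1) (x : (ℝ × (ι → ℝ)) × V) {c : ℝ}
    (h : |lW i₀ v f K r θ u x| ≤ |lA v f x - c|) :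
    ‖lH i₀ v f K r θ u x‖ ≤ ‖lY v x - c • f‖ := by
  refine le_of_sq_le_sq (a := ‖lH i₀ v f K r θ u x‖) ?_ (norm_nonneg _)
  rw [lH_sq hf, norm_lH_sq hf x c]
  have := sq_le_sq.mpr h
  linarith

theorem lH_eq (hf : ‖f‖ = 1) (x : (ℝ × (ι → ℝ)) × V) {c : ℝ}
    (h : |lW i₀ v f K r θ u x| = |lA v f x - c|) :
    ‖lH i₀ v f K r θ u x‖ = ‖lY v x - c • f‖ := by
  refine le_antisymm (lH_le hf x h.le) ?_
  refine le_of_sq_le_sq ?_ (norm_nonneg _)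
  rw [lH_sq hf, norm_lH_sq hf x c]
  have := sq_le_sq.mpr h.ge
  linarith

end Vec

/-! ### The plates -/

section Plates

variable {e : V} {j : κ} {ε R M K : ℝ} {D : LData κ (ι → ℝ) V} {θ u : T → ℝ} {s : Set T}
  {τ : T} {x : (ℝ × (ι → ℝ)) × V}

theorem lpar (h : LAdm i₀ e j ε R M K D) (he : ‖e‖ = 1) (hK : 64 * (‖D.vj‖ + 2 * D.r0) ≤ K) :
    LPar D.vj D.f e ε D.r0 R M K where
  hf := h.ff
  hh := he
  fh := h.fe
  vh := h.ve
  hε := h.hε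
  hr := by linarith [h.hr, h.hε]
  hR := by linarith [h.hvR, h.hr, h.hε]
  hM := h.posM
  hK := hK

theorem lT_eq (r K u : ℝ) (x : (ℝ × (ι → ℝ)) × V) :
    H240.lT r K u ‖x.1‖ (x.1.2 i₀) x.1.1 = lT i₀ K r u x.1 := rfl

theorem lW_eq (D : LData κ (ι → ℝ) V) (K θ u : ℝ) (x : (ℝ × (ι → ℝ)) × V) :
    H240.lW D.r0 K θ u ‖x.1‖ (x.1.2 i₀) x.1.1 (inner ℝ (x.2 - ‖x.1‖ • D.vj) D.f) =
      lW i₀ D.vj D.f K D.r0 θ u x := by
  unfold H240.lW lW lB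
  rw [add_assoc]
  rfl

theorem tp_fold : (lplates i₀ e ε R M K D θ u).tp τ .fold x =
    ε * ‖x.1‖ - ‖lH i₀ D.vj D.f K D.r0 (θ τ) (u τ) x‖ := by
  show ε * ‖x.1‖ - ‖x.2 - ‖x.1‖ • D.vj +
    (H240.lW D.r0 K (θ τ) (u τ) ‖x.1‖ (x.1.2 i₀) x.1.1 (inner ℝ (x.2 - ‖x.1‖ • D.vj) D.f) -
          inner ℝ (x.2 - ‖x.1‖ • D.vj) D.f) • D.f‖ = _
  rw [lW_eq]
  rfl

theorem tp_t : (lplates i₀ e ε R M K D θ u).tp τ (.sh (.inr false)) x =
    ε * ‖x.1‖ - ‖lY D.vj x - lT i₀ K D.r0 (u τ) x.1 • D.f‖ := rfl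

theorem tp_j (h : LAdm i₀ e j ε R M K D) (hx : kap x.1 i₀ ≤ 1 / 4) :
    (lplates i₀ e ε R M K D θ u).tp τ (.sh (.inl j)) x = ε * ‖x.1‖ - ‖lY D.vj x‖ := by
  show ε * ‖x.1‖ - ‖x.2 - ‖x.1‖ • D.b j (kap x.1)‖ = _
  rw [(h.jb _ (kap_mem x.1) hx).1]
  rfl

theorem tp_k (h : LAdm i₀ e j ε R M K D) (hx : kap x.1 i₀ ≤ 0) (hx' : -(1 / 4) ≤ kap x.1 i₀) :
    (lplates i₀ e ε R M K D θ u).tp τ (.sh (.inr true)) x =
      ε * ‖x.1‖ - ‖lY D.vj x - (2 * D.r0 * ‖x.1‖) • D.f‖ := by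
  show ε * ‖x.1‖ - ‖x.2 - ‖x.1‖ • D.bk (lf i₀ 0 (kap x.1))‖ = _
  rw [H782.lf_eq_self hx, (h.kb _ (kap_mem x.1) hx' hx).1]
  congr 2
  unfold lY
  rw [smul_add, smul_smul]
  have : ‖x.1‖ * (2 * D.r0) = 2 * D.r0 * ‖x.1‖ := by ring
  rw [this]
  abel

theorem lW_max (h : LAdm i₀ e j ε R M K D) {θ : ℝ} (hθ : θ ∈ Icc (0 : ℝ) 1) (u : ℝ)
    (hw : K * x.1.2 i₀ ≤ -(2 * (D.r0 * ‖x.1‖))) :
    lW i₀ D.vj D.f K D.r0 θ u x = max (lA D.vj D.f x - 2 * D.r0 * ‖x.1‖)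
      (lT i₀ K D.r0 u x.1 - lA D.vj D.f x) := by
  have hr : 0 ≤ D.r0 * ‖x.1‖ := mul_nonneg h.posr.le (norm_nonneg _)
  exact lW_left (B := lB i₀ D.vj D.f K D.r0 θ x) rfl (branch_le hθ (le_max_left _ _) hr hw)

theorem lT_le' (h : LAdm i₀ e j ε R M K D) (u : ℝ) (s : ℝ × (ι → ℝ)) :
    lT i₀ K D.r0 u s ≤ D.r0 * ‖s‖ :=
  max_le (mul_nonneg h.posr.le (norm_nonneg _)) (min_le_left _ _)

/-- The sheet `t` is dominated by the hairpin plate (without its domain). -/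
theorem tp_t_le (h : LAdm i₀ e j ε R M K D) (hθ : θ τ ∈ Icc (0 : ℝ) 1)
    (hw : K * x.1.2 i₀ ≤ -(2 * (D.r0 * ‖x.1‖))) :
    (lplates i₀ e ε R M K D θ u).tp τ (.sh (.inr false)) x ≤
      ε * ‖x.1‖ - ‖lH i₀ D.vj D.f K D.r0 (θ τ) (u τ) x‖ := by
  rw [tp_t]
  have hr : 0 ≤ D.r0 * ‖x.1‖ := mul_nonneg h.posr.le (norm_nonneg _)
  have := lH_le h.ff x (abs_left_t (lW_max h hθ (u τ) hw) (lT_le' h _ _) hr)
  linarith

/-- The sheet `k` is dominated by the hairpin plate (without its domain). -/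
theorem tp_k_le (h : LAdm i₀ e j ε R M K D) (hθ : θ τ ∈ Icc (0 : ℝ) 1)
    (hw : K * x.1.2 i₀ ≤ -(2 * (D.r0 * ‖x.1‖))) (hx : kap x.1 i₀ ≤ 0)
    (hx' : -(1 / 4) ≤ kap x.1 i₀) :
    (lplates i₀ e ε R M K D θ u).tp τ (.sh (.inr true)) x ≤
      ε * ‖x.1‖ - ‖lH i₀ D.vj D.f K D.r0 (θ τ) (u τ) x‖ := by
  rw [tp_k h hx hx']
  have := lH_le h.ff x (abs_left_k (lW_max h hθ (u τ) hw) (le_max_left _ _) (lT_le' h _ _))
  linarith

/-- Far left the hairpin plate consists of `k` and `t`. -/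
theorem le_tp (h : LAdm i₀ e j ε R M K D) (hθ : θ τ ∈ Icc (0 : ℝ) 1)
    (hw : K * x.1.2 i₀ ≤ -(2 * (D.r0 * ‖x.1‖))) (hx : kap x.1 i₀ ≤ 0)
    (hx' : -(1 / 4) ≤ kap x.1 i₀) :
    ε * ‖x.1‖ - ‖lH i₀ D.vj D.f K D.r0 (θ τ) (u τ) x‖ ≤
      max ((lplates i₀ e ε R M K D θ u).tp τ (.sh (.inr true)) x)
        ((lplates i₀ e ε R M K D θ u).tp τ (.sh (.inr false)) x) := by
  rw [tp_k h hx hx', tp_t]
  have e1 := lW_max h hθ (u τ) hw
  rcases le_total (lT i₀ K D.r0 (u τ) x.1 - lA D.vj D.f x)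
    (lA D.vj D.f x - 2 * D.r0 * ‖x.1‖) with h1 | h1
  · rw [max_eq_left h1] at e1
    rw [lH_eq h.ff x (by rw [e1] : |lW i₀ D.vj D.f K D.r0 (θ τ) (u τ) x| =
      |lA D.vj D.f x - 2 * D.r0 * ‖x.1‖|)]
    exact le_max_left _ _
  · rw [max_eq_right h1] at e1
    rw [lH_eq h.ff x (by rw [e1, abs_sub_comm] : |lW i₀ D.vj D.f K D.r0 (θ τ) (u τ) x| =
      |lA D.vj D.f x - lT i₀ K D.r0 (u τ) x.1|)]
    exact le_max_right _ _

/-- Near the sheet `t`, far left, the hairpin plate is `t`. -/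
theorem le_tp_t (h : LAdm i₀ e j ε R M K D) (hθ : θ τ ∈ Icc (0 : ℝ) 1) (hg : 0 < ‖x.1‖)
    (hw : K * x.1.2 i₀ ≤ -(2 * (D.r0 * ‖x.1‖)))
    (ht : -ε * ‖x.1‖ < (lplates i₀ e ε R M K D θ u).tp τ (.sh (.inr false)) x) :
    ε * ‖x.1‖ - ‖lH i₀ D.vj D.f K D.r0 (θ τ) (u τ) x‖ ≤
      (lplates i₀ e ε R M K D θ u).tp τ (.sh (.inr false)) x := by
  rw [tp_t] at ht ⊢
  have e1 := lW_max h hθ (u τ) hw
  have h2 : |lA D.vj D.f x - lT i₀ K D.r0 (u τ) x.1| < 2 * (ε * ‖x.1‖) := by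
    have h3 : lA D.vj D.f x - lT i₀ K D.r0 (u τ) x.1 =
        inner ℝ (lY D.vj x - lT i₀ K D.r0 (u τ) x.1 • D.f) D.f := by
      rw [inner_sub_left, real_inner_smul_left, real_inner_self_eq_norm_sq, h.ff]
      show _ = lA D.vj D.f x - _
      ring
    rw [h3]
    have h4 := abs_real_inner_le_norm (lY D.vj x - lT i₀ K D.r0 (u τ) x.1 • D.f) D.f
    rw [h.ff, mul_one] at h4
    linarith
  have h3 := lT_le' (i₀ := i₀) h (u τ) x.1
  have h4 : 32 * (ε * ‖x.1‖) ≤ D.r0 * ‖x.1‖ := by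
    have := mul_le_mul_of_nonneg_right h.hr hg.le
    linarith
  have h5 := abs_lt.mp h2
  have h6 : 0 < ε * ‖x.1‖ := mul_pos h.hε hg
  rw [max_eq_right (by linarith)] at e1
  rw [lH_eq h.ff x (by rw [e1, abs_sub_comm] : |lW i₀ D.vj D.f K D.r0 (θ τ) (u τ) x| =
      |lA D.vj D.f x - lT i₀ K D.r0 (u τ) x.1|)]

/-- Local facts near a zero, at a point `(τ, x)`. -/
structure Loc1 (i₀ : ι) (e : V) (j : κ) (ε R M K : ℝ) (D : LData κ (ι → ℝ) V) (θ u : T → ℝ)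
    (τ₀ : T) (x₀ : (ℝ × (ι → ℝ)) × V) (τ : T) (x : (ℝ × (ι → ℝ)) × V) : Prop where
  th : θ τ ∈ Icc (0 : ℝ) 1
  g : 0 < ‖x.1‖
  vis : ‖x.1‖ / 4 < x.1.1 - ‖x.1.2‖ / 2
  fold : (lplates i₀ e ε R M K D θ u).rho τ₀ .fold x₀ = 0 →
    -ε * ‖x.1‖ < (lplates i₀ e ε R M K D θ u).rho τ .fold x
  t : (lplates i₀ e ε R M K D θ u).rho τ₀ (.sh (.inr false)) x₀ = 0 →
    -ε * ‖x.1‖ < (lplates i₀ e ε R M K D θ u).rho τ (.sh (.inr false)) x
  zA : -(7 / 2 * D.r0 * ‖x₀.1‖) ≤ K * x₀.1.2 i₀ → -(15 / 4 * D.r0 * ‖x.1‖) < K * x.1.2 i₀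
  zB : K * x₀.1.2 i₀ < -(7 / 2 * D.r0 * ‖x₀.1‖) → K * x.1.2 i₀ < -(7 / 2 * D.r0 * ‖x.1‖)
  zC : K * x₀.1.2 i₀ ≤ -(3 * D.r0 * ‖x₀.1‖) → K * x.1.2 i₀ < -(2 * D.r0 * ‖x.1‖)

theorem visσ (h : LAdm i₀ e j ε R M K D) (hg : 0 < ‖x.1‖)
    (hv : ‖x.1‖ / 4 < x.1.1 - ‖x.1.2‖ / 2) : ε * ‖x.1‖ ≤ M * (x.1.1 - ‖x.1.2‖ / 2) := by
  have h1 := h.posM
  have h2 : M * (‖x.1‖ / 4) ≤ M * (x.1.1 - ‖x.1.2‖ / 2) :=
    mul_le_mul_of_nonneg_left hv.le h1.le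
  have h3 : 4 * ε * ‖x.1‖ ≤ M * ‖x.1‖ :=
    mul_le_mul_of_nonneg_right (by linarith [h.hM, h.hR, h.hε]) hg.le
  linarith

theorem bigσ (h : LAdm i₀ e j ε R M K D) (hg : 0 < ‖x.1‖) {t : ℝ}
    (ht : 1 / 4 * (D.r0 * ‖x.1‖) ≤ t) : ε * ‖x.1‖ ≤ M * t := by
  have h1 := h.posM
  have h2 : M * (1 / 4 * (D.r0 * ‖x.1‖)) ≤ M * t := mul_le_mul_of_nonneg_left ht h1.le
  have h3 : 4 * ε ≤ M * D.r0 := by
    have h4 := h.hMr
    have h5 := h.hvR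
    have h6 := norm_nonneg D.vj
    have h7 := h.hr
    have h8 := h.hε
    linarith
  have h4 := mul_le_mul_of_nonneg_right h3 hg.le
  linarith

theorem rho_le_tp (a : HIx κ) : (lplates i₀ e ε R M K D θ u).rho τ a x ≤
    (lplates i₀ e ε R M K D θ u).tp τ a x := min_le_left _ _

variable [Fintype κ]

theorem H_le (h : LAdm i₀ e j ε R M K D) {τ₀ : T} {x₀ : (ℝ × (ι → ℝ)) × V}
    (hact : (lplates i₀ e ε R M K D θ u).rho τ₀ .fold x₀ = 0 ∨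
      (lplates i₀ e ε R M K D θ u).rho τ₀ (.sh (.inr false)) x₀ = 0)
    (L : Loc1 i₀ e j ε R M K D θ u τ₀ x₀ τ x) :
    ε * ‖x.1‖ - ‖lH i₀ D.vj D.f K D.r0 (θ τ) (u τ) x‖ ≤
      gre (lplates i₀ e ε R M K D θ u).rho τ x := by
  have hg := L.g
  have hx1 : x.1 ≠ 0 := norm_pos_iff.mp hg
  have hσ := visσ h hg L.vis
  have hHε : ε * ‖x.1‖ - ‖lH i₀ D.vj D.f K D.r0 (θ τ) (u τ) x‖ ≤ ε * ‖x.1‖ := by
    linarith [norm_nonneg (lH i₀ D.vj D.f K D.r0 (θ τ) (u τ) x)]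
  have hrg : 0 < D.r0 * ‖x.1‖ := mul_pos h.posr hg
  rcases le_or_gt (-(7 / 2 * D.r0 * ‖x₀.1‖)) (K * x₀.1.2 i₀) with hz | hz
  · -- the hairpin plate is present
    have h1 := L.zA hz
    refine le_trans ?_ (gre_ge τ .fold x)
    refine le_min (by rw [tp_fold]) (le_min ?_ ?_)
    · exact hHε.trans hσ
    · exact hHε.trans (bigσ h hg (by linarith))
  · have h1 := L.zB hz
    have h2 : K * x.1.2 i₀ ≤ -(2 * (D.r0 * ‖x.1‖)) := by linarith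
    have hdom : ε * ‖x.1‖ ≤ ldom i₀ M K D.r0 x.1 := le_min hσ (bigσ h hg (by linarith))
    have hrt : (lplates i₀ e ε R M K D θ u).tp τ (.sh (.inr false)) x ≤
        gre (lplates i₀ e ε R M K D θ u).rho τ x := by
      refine le_trans ?_ (gre_ge τ (.sh (.inr false)) x)
      refine le_min le_rfl (le_trans ?_ hdom)
      rw [tp_t]
      linarith [norm_nonneg (lY D.vj x - lT i₀ K D.r0 (u τ) x.1 • D.f)]
    rcases hact with ha | ha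
    · have hnf := near_fold h L.th hx1 (L.fold ha)
      have hw0 : x.1.2 i₀ ≤ 0 := by
        by_contra hcon
        have := mul_pos h.posK (not_le.mp hcon)
        linarith
      have hk0 : kap x.1 i₀ ≤ 0 := by
        have := H782.kap_le_of hx1 (c := 0) le_rfl (i₀ := i₀) (by linarith)
        linarith
      refine (le_tp h L.th h2 hk0 hnf.2.2.1).trans (max_le ?_ hrt)
      refine le_trans ?_ (gre_ge τ (.sh (.inr true)) x)
      refine le_min le_rfl (le_trans ?_ hdom)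
      rw [tp_k h hk0 hnf.2.2.1]
      linarith [norm_nonneg (lY D.vj x - (2 * D.r0 * ‖x.1‖) • D.f)]
    · exact (le_tp_t h L.th hg h2 (lt_of_lt_of_le (L.t ha) (rho_le_tp _))).trans hrt

theorem kap_quarter (h : LAdm i₀ e j ε R M K D) {τ₀ : T} {x₀ : (ℝ × (ι → ℝ)) × V}
    (hact : (lplates i₀ e ε R M K D θ u).rho τ₀ .fold x₀ = 0 ∨
      (lplates i₀ e ε R M K D θ u).rho τ₀ (.sh (.inr false)) x₀ = 0)
    (L : Loc1 i₀ e j ε R M K D θ u τ₀ x₀ τ x) : kap x.1 i₀ ≤ 1 / 4 := by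
  have hx1 : x.1 ≠ 0 := norm_pos_iff.mp L.g
  rcases hact with ha | ha
  · exact (near_fold h L.th hx1 (L.fold ha)).2.2.2.1
  · have := (near_t h hx1 (L.t ha)).2
    linarith

theorem lRe_le (h : LAdm i₀ e j ε R M K D) {τ₀ : T} {x₀ : (ℝ × (ι → ℝ)) × V}
    (hact : (lplates i₀ e ε R M K D θ u).rho τ₀ .fold x₀ = 0 ∨
      (lplates i₀ e ε R M K D θ u).rho τ₀ (.sh (.inr false)) x₀ = 0)
    (L : Loc1 i₀ e j ε R M K D θ u τ₀ x₀ τ x) :
    lRe i₀ D.vj D.f ε D.r0 R M K (θ τ) (u τ) x ≤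
      gre (lplates i₀ e ε R M K D θ u).rho τ x := by
  unfold lRe
  refine max_le (max_le (gre_ge (rho := (lplates i₀ e ε R M K D θ u).rho) τ HIx.slab x) ?_)
    (H_le h hact L)
  refine le_trans ?_ (gre_ge τ (.sh (.inl j)) x)
  refine le_min (by rw [tp_j h (kap_quarter h hact L)]) ?_
  refine le_trans ?_ (visσ h L.g L.vis)
  linarith [norm_nonneg (lY D.vj x)]

theorem le_lRe (h : LAdm i₀ e j ε R M K D) {τ₀ : T} (hθ₀ : θ τ₀ ∈ Icc (0 : ℝ) 1)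
    {x₀ : (ℝ × (ι → ℝ)) × V} (hx₀ : x₀.1 ≠ 0)
    (hact : (lplates i₀ e ε R M K D θ u).rho τ₀ .fold x₀ = 0 ∨
      (lplates i₀ e ε R M K D θ u).rho τ₀ (.sh (.inr false)) x₀ = 0)
    (L : Loc1 i₀ e j ε R M K D θ u τ₀ x₀ τ x) {a : HIx κ}
    (ha : (lplates i₀ e ε R M K D θ u).rho τ₀ a x₀ = 0) :
    (lplates i₀ e ε R M K D θ u).rho τ a x ≤ lRe i₀ D.vj D.f ε D.r0 R M K (θ τ) (u τ) x := by
  have hg := L.g
  have hg₀ : 0 < ‖x₀.1‖ := norm_pos_iff.mpr hx₀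
  have hx1 : x.1 ≠ 0 := norm_pos_iff.mp hg
  have hneg : -ε * ‖x₀.1‖ < 0 := by
    have := mul_pos h.hε hg₀
    linarith
  have hdomC : 0 ≤ ldom i₀ M K D.r0 x₀.1 → K * x.1.2 i₀ ≤ -(2 * (D.r0 * ‖x.1‖)) := by
    intro h1
    have h2 : 0 ≤ M * (-(K * x₀.1.2 i₀) - 3 * D.r0 * ‖x₀.1‖) := h1.trans (min_le_right _ _)
    have h3 : 0 ≤ -(K * x₀.1.2 i₀) - 3 * D.r0 * ‖x₀.1‖ :=
      (mul_nonneg_iff_of_pos_left h.posM).mp h2
    have := L.zC (by linarith)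
    linarith
  match a, ha with
  | .slab, _ => exact (le_max_left _ _).trans (le_max_left _ _)
  | .fold, _ =>
    refine (rho_le_tp _).trans ?_
    rw [tp_fold]
    exact le_max_right _ _
  | .sh (.inr false), ha =>
    refine (rho_le_tp _).trans ((tp_t_le h L.th (hdomC ?_)).trans (le_max_right _ _))
    rw [← ha]; exact min_le_right _ _
  | .sh (.inr true), ha =>
    have h1 : 0 ≤ ldom i₀ M K D.r0 x₀.1 := by rw [← ha]; exact min_le_right _ _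
    obtain ⟨h2, h3⟩ := near_k h hx₀ (by rw [ha]; exact hneg)
    have hf : (lplates i₀ e ε R M K D θ u).rho τ₀ .fold x₀ = 0 := by
      rcases hact with h4 | h4
      · exact h4
      · exfalso
        obtain ⟨h5, -⟩ := near_t h hx₀ (by rw [h4]; exact hneg)
        have h6 := far_vj hg₀ h2 h5
        have h7 := h.dkj _ (kap_mem x₀.1) h3
        have h8 := h.hr
        have h9 := h.hε
        linarith
    have hnf := near_fold h L.th hx1 (L.fold hf)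
    have hw := hdomC h1
    have hw0 : x.1.2 i₀ ≤ 0 := by
      by_contra hcon
      have := mul_pos h.posK (not_le.mp hcon)
      have := mul_pos h.posr hg
      linarith
    have hk0 : kap x.1 i₀ ≤ 0 := by
      have := H782.kap_le_of hx1 (c := 0) le_rfl (i₀ := i₀) (by linarith)
      linarith
    exact (rho_le_tp _).trans ((tp_k_le h L.th hw hk0 hnf.2.2.1).trans (le_max_right _ _))
  | .sh (.inl i), ha =>
    by_cases hij : i = j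
    · subst hij
      refine (rho_le_tp _).trans ?_
      rw [tp_j h (kap_quarter h hact L)]
      exact (le_max_right _ _).trans (le_max_left _ _)
    · exfalso
      have n1 := near_oth (i₀ := i₀) (e := e) (M := M) (by rw [ha]; exact hneg)
      rcases hact with h4 | h4
      · obtain ⟨-, -, -, h5, h6, -⟩ := near_fold h hθ₀ hx₀ (by rw [h4]; exact hneg)
        have h7 := far_vj hg₀ n1 (B := 2 * D.r0 + 4 * ε) (by linarith)
        have h8 := h.dj _ (kap_mem x₀.1) h5 i hij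
        linarith [h.hr, h.hε]
      · obtain ⟨h5, h6⟩ := near_t h hx₀ (by rw [h4]; exact hneg)
        have h7 := far_vj hg₀ n1 h5
        have h8 := h.dj _ (kap_mem x₀.1) (by linarith) i hij
        linarith [h.hr, h.hε]

/-- The local facts hold near a zero. -/
theorem ev_loc1 (h : LAdm i₀ e j ε R M K D)
    (hB : (lplates i₀ e ε R M K D θ u).Base s ε (fun x => ‖x.1‖))
    (hθ : ∀ τ ∈ s, θ τ ∈ Icc (0 : ℝ) 1) {τ₀ : T} (hτ₀ : τ₀ ∈ s)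
    {x₀ : (ℝ × (ι → ℝ)) × V} (hg₀ : 0 < ‖x₀.1‖) (hv : ‖x₀.1‖ / 4 < x₀.1.1 - ‖x₀.1.2‖ / 2) :
    ∀ᶠ p : T × ((ℝ × (ι → ℝ)) × V) in 𝓝[s ×ˢ univ] (τ₀, x₀),
      Loc1 i₀ e j ε R M K D θ u τ₀ x₀ p.1 p.2 := by
  have cg : Continuous fun p : T × ((ℝ × (ι → ℝ)) × V) => ‖p.2.1‖ := by fun_prop
  have cw : Continuous fun p : T × ((ℝ × (ι → ℝ)) × V) => K * p.2.1.2 i₀ := by fun_prop
  have cv : Continuous fun p : T × ((ℝ × (ι → ℝ)) × V) => p.2.1.1 - ‖p.2.1.2‖ / 2 := by fun_prop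
  have ca : ∀ a, (lplates i₀ e ε R M K D θ u).rho τ₀ a x₀ = 0 →
      ∀ᶠ p : T × ((ℝ × (ι → ℝ)) × V) in 𝓝[s ×ˢ univ] (τ₀, x₀),
        -ε * ‖p.2.1‖ < (lplates i₀ e ε R M K D θ u).rho p.1 a p.2 := by
    intro a ha
    have h1 := hB.glue.cr a (τ₀, x₀) ⟨hτ₀, mem_univ _⟩
    have h2 : ContinuousWithinAt (fun p : T × ((ℝ × (ι → ℝ)) × V) => -ε * ‖p.2.1‖)
      (s ×ˢ univ) (τ₀, x₀) := (continuous_const.mul cg).continuousWithinAt
    refine h2.eventually_lt h1 ?_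
    show -ε * ‖x₀.1‖ < (lplates i₀ e ε R M K D θ u).rho τ₀ a x₀
    rw [ha]
    have := mul_pos h.hε hg₀
    linarith
  have cimp : ∀ {P : Prop} {Q : T × ((ℝ × (ι → ℝ)) × V) → Prop},
      (P → ∀ᶠ p in 𝓝[s ×ˢ univ] (τ₀, x₀), Q p) → ∀ᶠ p in 𝓝[s ×ˢ univ] (τ₀, x₀), P → Q p := by
    intro P Q hPQ
    by_cases hP : P
    · exact (hPQ hP).mono fun p hp _ => hp
    · exact Eventually.of_forall fun p hp => absurd hp hP
  have e1 : ∀ᶠ p : T × ((ℝ × (ι → ℝ)) × V) in 𝓝[s ×ˢ univ] (τ₀, x₀), 0 < ‖p.2.1‖ :=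
    cg.continuousWithinAt.eventually (lt_mem_nhds hg₀)
  have e2 : ∀ᶠ p : T × ((ℝ × (ι → ℝ)) × V) in 𝓝[s ×ˢ univ] (τ₀, x₀),
      ‖p.2.1‖ / 4 < p.2.1.1 - ‖p.2.1.2‖ / 2 :=
    (cg.div_const 4).continuousWithinAt.eventually_lt cv.continuousWithinAt hv
  have hrg : 0 < D.r0 * ‖x₀.1‖ := mul_pos h.posr hg₀
  have e5 := cimp (P := -(7 / 2 * D.r0 * ‖x₀.1‖) ≤ K * x₀.1.2 i₀)
    (Q := fun p => -(15 / 4 * D.r0 * ‖p.2.1‖) < K * p.2.1.2 i₀) fun h1 =>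
    (continuous_const.mul cg).neg.continuousWithinAt.eventually_lt cw.continuousWithinAt
      (show -(15 / 4 * D.r0 * ‖x₀.1‖) < K * x₀.1.2 i₀ by linarith)
  have e6 := cimp (P := K * x₀.1.2 i₀ < -(7 / 2 * D.r0 * ‖x₀.1‖))
    (Q := fun p => K * p.2.1.2 i₀ < -(7 / 2 * D.r0 * ‖p.2.1‖)) fun h1 =>
    cw.continuousWithinAt.eventually_lt (continuous_const.mul cg).neg.continuousWithinAt h1
  have e7 := cimp (P := K * x₀.1.2 i₀ ≤ -(3 * D.r0 * ‖x₀.1‖))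
    (Q := fun p => K * p.2.1.2 i₀ < -(2 * D.r0 * ‖p.2.1‖)) fun h1 =>
    cw.continuousWithinAt.eventually_lt (continuous_const.mul cg).neg.continuousWithinAt
      (show K * x₀.1.2 i₀ < -(2 * D.r0 * ‖x₀.1‖) by linarith)
  filter_upwards [self_mem_nhdsWithin, e1, e2, cimp (ca .fold), cimp (ca (.sh (.inr false))),
    e5, e6, e7] with p h0 h1 h2 h3 h4 h5 h6 h7
  exact ⟨hθ _ h0.1, h1, h2, h3, h4, h5, h6, h7⟩

/-- **Regularity at a zero where the hairpin or the sheet `t` is active.** -/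
theorem lplates_regAt_fold (h : LAdm i₀ e j ε R M K D) (he : ‖e‖ = 1)
    (hK : 64 * (‖D.vj‖ + 2 * D.r0) ≤ K) (cθ : ContinuousOn θ s) (cu : ContinuousOn u s)
    (hθ : ∀ τ ∈ s, θ τ ∈ Icc (0 : ℝ) 1) (hu : ∀ τ ∈ s, u τ ∈ Icc (-3 : ℝ) 0)
    {τ₀ : T} (hτ₀ : τ₀ ∈ s) {x₀ : (ℝ × (ι → ℝ)) × V} (hx₀ : x₀.1 ≠ 0)
    (hF : (lplates i₀ e ε R M K D θ u).fn ε (fun x => ‖x.1‖) τ₀ x₀ = 0)
    (hact : (lplates i₀ e ε R M K D θ u).rho τ₀ .fold x₀ = 0 ∨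
      (lplates i₀ e ε R M K D θ u).rho τ₀ (.sh (.inr false)) x₀ = 0) :
    RegAt s ((lplates i₀ e ε R M K D θ u).fn ε (fun x => ‖x.1‖)) τ₀ x₀ := by
  have hB := lplates_base h he cθ cu hθ
  have hg₀ : 0 < ‖x₀.1‖ := norm_pos_iff.mpr hx₀
  have hneg : -ε * ‖x₀.1‖ < 0 := by
    have := mul_pos h.hε hg₀
    linarith
  have h0 : gre (lplates i₀ e ε R M K D θ u).rho τ₀ x₀ = 0 := congrArg Complex.re hF
  have hM := h.posM
  -- the point is visible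
  have hdom : 0 ≤ M * (x₀.1.1 - ‖x₀.1.2‖ / 2) := by
    rcases hact with h1 | h1
    · have h2 : 0 ≤ lfdom i₀ M K D.r0 x₀.1 := by rw [← h1]; exact min_le_right _ _
      exact h2.trans (min_le_left _ _)
    · have h2 : 0 ≤ ldom i₀ M K D.r0 x₀.1 := by rw [← h1]; exact min_le_right _ _
      exact h2.trans (min_le_left _ _)
  have hdom' : 0 ≤ x₀.1.1 - ‖x₀.1.2‖ / 2 := (mul_nonneg_iff_of_pos_left hM).mp hdom
  have hu0 : 0 < x₀.1.1 := by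
    rcases (norm_nonneg x₀.1.2).lt_or_eq with h1 | h1
    · linarith
    · rcases hdom'.lt_or_eq with h2 | h2
      · linarith
      · exfalso
        apply hx₀
        refine Prod.ext ?_ (norm_eq_zero.mp h1.symm)
        show x₀.1.1 = 0
        linarith
  have hv : ‖x₀.2‖ < R * ‖x₀.1‖ := by
    have h1 : ‖x₀.2 - ‖x₀.1‖ • D.vj‖ < (3 * D.r0) * ‖x₀.1‖ := by
      rcases hact with h1 | h1
      · have h2 := (near_fold h (hθ _ hτ₀) hx₀ (by rw [h1]; exact hneg)).2.2.2.2.1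
        have h3 := mul_le_mul_of_nonneg_right h.hr hg₀.le
        have h4 := mul_pos h.hε hg₀
        linarith
      · have h2 := (near_t h hx₀ (by rw [h1]; exact hneg)).1
        have h3 := mul_le_mul_of_nonneg_right h.hr hg₀.le
        have h4 := mul_pos h.hε hg₀
        linarith
    have h2 := norm_add_le (x₀.2 - ‖x₀.1‖ • D.vj) (‖x₀.1‖ • D.vj)
    rw [sub_add_cancel, norm_smul, norm_norm] at h2
    have h3 := mul_lt_mul_of_pos_right h.hvR hg₀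
    have h4 := mul_pos h.posr hg₀
    linarith
  have hp : ‖x₀.1.2‖ ≤ x₀.1.1 := by
    have h1 : (lplates i₀ e ε R M K D θ u).rho τ₀ .slab x₀ ≤ 0 := h0 ▸ gre_ge τ₀ _ x₀
    have h2 : min (R * ‖x₀.1‖ - ‖x₀.2‖) (M * (‖x₀.1.2‖ - |x₀.1.1|)) ≤ 0 := h1
    rcases min_le_iff.mp h2 with h3 | h3
    · linarith
    · rw [abs_of_pos hu0] at h3
      by_contra hcon
      have := mul_pos hM (sub_pos.mpr (not_le.mp hcon))
      linarith
  have hvis : ‖x₀.1‖ / 4 < x₀.1.1 - ‖x₀.1.2‖ / 2 := by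
    have h1 : ‖x₀.1‖ = x₀.1.1 := by
      rw [Prod.norm_def, Real.norm_eq_abs, abs_of_pos hu0, max_eq_left hp]
    rw [h1]
    linarith
  have hloc := ev_loc1 (i₀ := i₀) (e := e) (j := j) h hB hθ hτ₀ hg₀ hvis
  -- the real part
  have hre : ∀ᶠ p : T × ((ℝ × (ι → ℝ)) × V) in 𝓝[s ×ˢ univ] (τ₀, x₀),
      gre (lplates i₀ e ε R M K D θ u).rho p.1 p.2 =
        lRe i₀ D.vj D.f ε D.r0 R M K (θ p.1) (u p.1) p.2 := by
    filter_upwards [hloc, hB.glueL.active hτ₀ x₀] with p L hp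
    refine le_antisymm ?_ (lRe_le h hact L)
    obtain ⟨a, ha, hpa⟩ := hp
    rw [hpa]
    exact le_lRe h (hθ _ hτ₀) hx₀ hact L (ha.trans h0)
  have hre0 : lRe i₀ D.vj D.f ε D.r0 R M K (θ τ₀) (u τ₀) x₀ = 0 := by
    have := hre.self_of_nhdsWithin (show (τ₀, x₀) ∈ s ×ˢ univ from ⟨hτ₀, mem_univ _⟩)
    rw [← h0]; exact this.symm
  have hH : ‖lH i₀ D.vj D.f K D.r0 (θ τ₀) (u τ₀) x₀‖ = ε * ‖x₀.1‖ := by
    have h1 : ε * ‖x₀.1‖ - ‖lH i₀ D.vj D.f K D.r0 (θ τ₀) (u τ₀) x₀‖ ≤ 0 := by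
      rw [← hre0]; exact le_max_right _ _
    have h2 : 0 ≤ ε * ‖x₀.1‖ - ‖lH i₀ D.vj D.f K D.r0 (θ τ₀) (u τ₀) x₀‖ := by
      rcases hact with h3 | h3
      · rw [← h3, ← tp_fold (i₀ := i₀) (e := e) (R := R) (M := M)]
        exact rho_le_tp _
      · have h4 : 0 ≤ ldom i₀ M K D.r0 x₀.1 := by rw [← h3]; exact min_le_right _ _
        have h5 : 0 ≤ -(K * x₀.1.2 i₀) - 3 * D.r0 * ‖x₀.1‖ :=
          (mul_nonneg_iff_of_pos_left hM).mp (h4.trans (min_le_right _ _))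
        have h6 := mul_pos h.posr hg₀
        rw [← h3]
        exact (rho_le_tp _).trans (tp_t_le h (hθ _ hτ₀) (by linarith))
    linarith
  refine left_regAt (lpar h he hK) hθ hu cθ cu hτ₀ (ev_prod (Q := fun t x =>
    ((lplates i₀ e ε R M K D θ u).fn ε (fun x => ‖x.1‖) t x).re =
      lRe i₀ D.vj D.f ε D.r0 R M K (θ t) (u t) x) hre) ?_ hF hu0 hH
  -- the imaginary part
  rcases hact with h1 | h1
  · obtain ⟨U, hU, h2⟩ := hB.glueL.near hτ₀ (x₀ := x₀) hg₀.ne' (a := HIx.fold) (by rw [h1])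
    refine ⟨U, hU, h2.mono fun t ht x hx => ?_⟩
    exact (ht x hx).trans (be_fold h)
  · obtain ⟨U, hU, h2⟩ := hB.glueL.near hτ₀ (x₀ := x₀) hg₀.ne' (a := HIx.sh (.inr false))
      (by rw [h1])
    refine ⟨U, hU, h2.mono fun t ht x hx => ?_⟩
    exact (ht x hx).trans (be_t h)

/-- **The left family is of class `R`.** -/
theorem lplates_rfam (h : LAdm i₀ e j ε R M K D) (he : ‖e‖ = 1)
    (hK : 64 * (‖D.vj‖ + 2 * D.r0) ≤ K) (cθ : ContinuousOn θ s) (cu : ContinuousOn u s)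
    (hθ : ∀ τ ∈ s, θ τ ∈ Icc (0 : ℝ) 1) (hu : ∀ τ ∈ s, u τ ∈ Icc (-3 : ℝ) 0) :
    RFam s ((lplates i₀ e ε R M K D θ u).fn ε (fun x => ‖x.1‖)) := by
  have hB := lplates_base h he cθ cu hθ
  refine ⟨hB.glue.continuousOn_fn, fun τ hτ => hB.glue.hom1 hτ, fun τ hτ x hx h0 => ?_⟩
  obtain ⟨h1, h2⟩ := (hB.glue.eq_zero_iff hτ x).mp h0
  have h3 : ‖x.1‖ ≠ 0 := hB.glue.N_ne hτ hx h1.ge
  have h4 : x.1 ≠ 0 := norm_ne_zero_iff.mp h3
  by_cases hact : (lplates i₀ e ε R M K D θ u).rho τ .fold x = 0 ∨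
      (lplates i₀ e ε R M K D θ u).rho τ (.sh (.inr false)) x = 0
  · exact lplates_regAt_fold h he hK cθ cu hθ hu hτ h4 h0 hact
  · rw [not_or] at hact
    exact H240.lplates_regAt_other h he hB hτ (hθ τ hτ) h4 h1 (fun a ha => h2 a h3 ha)
      hact.1 hact.2

/-- **LEFT.** -/
theorem left_veq [ProperSpace V] (h : LAdm i₀ e j ε R M K D) (he : ‖e‖ = 1)
    (hK : 64 * (‖D.vj‖ + 2 * D.r0) ≤ K) :
    VEq (LF i₀ e ε R M K D 0 0) (LF i₀ e ε R M K D 1 (-3)) := by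
  have key : ∀ a : ℝ, a ∈ Icc (0 : ℝ) 1 → VEq (LF i₀ e ε R M K D a (-3 * a))
      ((lplates i₀ e ε R M K D (fun τ : ℝ => τ) (fun τ => -3 * τ)).fn ε (fun x => ‖x.1‖) a) := by
    intro a ha
    have h1 := (lplates_base (T := Unit) (s := univ) (θ := fun _ => a) (u := fun _ => -3 * a)
      h he continuousOn_const continuousOn_const (fun _ _ => ha)).glue
    have h2 := (lplates_base (T := ℝ) (s := Icc 0 1) (θ := fun τ => τ) (u := fun τ => -3 * τ)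
      h he continuousOn_id (by fun_prop) (fun _ hτ => hτ)).glue
    exact gfn_veq h1 (mem_univ ()) h2 ha rfl rfl
  have hfam := lplates_rfam (T := ℝ) (s := Icc 0 1) (θ := fun τ => τ) (u := fun τ => -3 * τ)
    h he hK continuousOn_id (by fun_prop) (fun _ hτ => hτ)
    (fun τ hτ => ⟨by linarith [hτ.2], by linarith [hτ.1]⟩)
  have l := left_mem_Icc.mpr (zero_le_one (α := ℝ))
  have r := right_mem_Icc.mpr (zero_le_one (α := ℝ))
  have k0 := key 0 l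
  have k1 := key 1 r
  rw [mul_zero] at k0
  rw [mul_one] at k1
  exact k0.trans ((hfam.veq isPreconnected_Icc l r).trans k1.symm)

end Plates

end Vale.Agent.P268.T.H654
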