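import Vale.Agent.P268.T.H327.HP

/-!
# P268, topological half, block B6b: the hairpin plate of the splitting

Notation: `x = ((u₀, p), v')`, `g = ‖(u₀, p)‖`, `v` = position of the sheet `j`, `f` = unit vector
(direction of the splitting), `y = v' - g v`, `la = ⟪y, f⟫`.  Position of the sheet `t`:
`g v + T f`, `T = max 0 (min (r g) (K (p i₀ - u u₀)))`.  The hairpin plate is `y + (W - la) f`,
`W = max (max (K p i₀ + ((1 - θ) la + θ |la - 3/2 r g|)) (la - 2 r g)) (T - la)`.
-/

set_option linter.unusedSectionVars false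

namespace Vale.Agent.P268.T

variable {ι V : Type*} [Fintype ι] [NormedAddCommGroup V] [InnerProductSpace ℝ V]

/-- The position relative to the sheet `j`. -/
noncomputable def lY (v : V) (x : (ℝ × (ι → ℝ)) × V) : V := x.2 - ‖x.1‖ • v

/-- The coordinate of the splitting. -/
noncomputable def lA (v f : V) (x : (ℝ × (ι → ℝ)) × V) : ℝ := inner ℝ (lY v x) f

/-- The distance of `t` and `j`. -/
noncomputable def lT (i₀ : ι) (K r u : ℝ) (s : ℝ × (ι → ℝ)) : ℝ :=
  max 0 (min (r * ‖s‖) (K * (s.2 i₀ - u * s.1)))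

/-- The first branch of the hairpin coordinate. -/
noncomputable def lB (i₀ : ι) (v f : V) (K r θ : ℝ) (x : (ℝ × (ι → ℝ)) × V) : ℝ :=
  K * x.1.2 i₀ + ((1 - θ) * lA v f x + θ * |lA v f x - 3 / 2 * r * ‖x.1‖|)

/-- The hairpin coordinate. -/
noncomputable def lW (i₀ : ι) (v f : V) (K r θ u : ℝ) (x : (ℝ × (ι → ℝ)) × V) : ℝ :=
  max (max (lB i₀ v f K r θ x) (lA v f x - 2 * r * ‖x.1‖)) (lT i₀ K r u x.1 - lA v f x)

/-- The hairpin plate. -/
noncomputable def lH (i₀ : ι) (v f : V) (K r θ u : ℝ) (x : (ℝ × (ι → ℝ)) × V) : V :=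
  lY v x + (lW i₀ v f K r θ u x - lA v f x) • f

end Vale.Agent.P268.T
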